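import Mathlib

/-!
Sums of unit fractions with repetitions allowed, and removal of repetitions.
-/

namespace Vale.Agent.P012

open Finset

/-- `x` is a sum of at most `k` unit fractions (repetitions allowed). -/
def UF (k : ℕ) (x : ℚ) : Prop :=
  ∃ m : Multiset ℕ, Multiset.card m ≤ k ∧ (∀ n ∈ m, 0 < n) ∧
    (m.map (fun n : ℕ => (1 : ℚ) / n)).sum = x

theorem UF.zero (k : ℕ) : UF k 0 := ⟨0, by simp, by simp, by simp⟩

theorem UF.mono {k l : ℕ} {x : ℚ} (h : UF k x) (hkl : k ≤ l) : UF l x := by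
  obtain ⟨m, h1, h2, h3⟩ := h
  exact ⟨m, h1.trans hkl, h2, h3⟩

theorem UF.add {k l : ℕ} {x y : ℚ} (hx : UF k x) (hy : UF l y) : UF (k + l) (x + y) := by
  obtain ⟨m, h1, h2, h3⟩ := hx
  obtain ⟨m', h1', h2', h3'⟩ := hy
  refine ⟨m + m', ?_, ?_, ?_⟩
  · rw [Multiset.card_add]; omega
  · intro n hn
    rcases Multiset.mem_add.1 hn with h | h
    · exact h2 n h
    · exact h2' n h
  · rw [Multiset.map_add, Multiset.sum_add, h3, h3']

theorem UF.single {n : ℕ} (hn : 0 < n) : UF 1 ((1 : ℚ) / n) :=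
  ⟨{n}, by simp, by simpa using hn, by simp⟩

theorem UF.div {k L : ℕ} {x : ℚ} (hx : UF k x) (hL : 0 < L) : UF k (x / L) := by
  obtain ⟨m, h1, h2, h3⟩ := hx
  refine ⟨m.map (fun n => n * L), by simpa using h1, ?_, ?_⟩
  · intro n hn
    obtain ⟨a, ha, rfl⟩ := Multiset.mem_map.1 hn
    exact Nat.mul_pos (h2 a ha) hL
  · rw [← h3, Multiset.map_map, div_eq_mul_inv, ← Multiset.sum_map_mul_right]
    congr 1
    apply Multiset.map_congr rfl
    intro a _
    simp only [Function.comp]
    push_cast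
    rw [one_div, one_div, mul_inv]

theorem UF.nonneg {k : ℕ} {x : ℚ} (hx : UF k x) : 0 ≤ x := by
  obtain ⟨m, _, _, h3⟩ := hx
  rw [← h3]
  apply Multiset.sum_nonneg
  intro y hy
  obtain ⟨a, _, rfl⟩ := Multiset.mem_map.1 hy
  positivity

theorem UF.of_sum {ι : Type*} (s : Finset ι) (f : ι → ℕ) (hf : ∀ i ∈ s, 0 < f i) :
    UF s.card (∑ i ∈ s, (1 : ℚ) / f i) := by
  refine ⟨s.val.map f, by simp, ?_, ?_⟩
  · intro n hn
    obtain ⟨a, ha, rfl⟩ := Multiset.mem_map.1 hn
    exact hf a ha
  · rw [Multiset.map_map]; rfl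

theorem UF.succ_cases {k : ℕ} {x : ℚ} (hx : UF (k + 1) x) :
    x = 0 ∨ ∃ n : ℕ, 0 < n ∧ UF k (x - 1 / n) := by
  obtain ⟨m, h1, h2, h3⟩ := hx
  rcases Multiset.empty_or_exists_mem m with rfl | ⟨n, hn⟩
  · left; simpa using h3.symm
  · right
    obtain ⟨m', rfl⟩ := Multiset.exists_cons_of_mem hn
    refine ⟨n, h2 n hn, m', ?_, ?_, ?_⟩
    · simp at h1; omega
    · intro a ha; exact h2 a (Multiset.mem_cons_of_mem ha)
    · rw [← h3]; simp

/-- Repetitions can be removed without increasing the number of terms. -/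
theorem UF.distinct {k : ℕ} : ∀ {x : ℚ}, UF k x → x < 1 →
    ∃ s : Finset ℕ, (∀ n ∈ s, 2 ≤ n) ∧ ∑ n ∈ s, (1 : ℚ) / n = x ∧ s.card ≤ k := by
  classical
  induction k with
  | zero =>
    intro x hx _
    obtain ⟨m, h1, _, h3⟩ := hx
    have : m = 0 := by simpa using h1
    subst this
    exact ⟨∅, by simp, by simpa using h3, by simp⟩
  | succ k ih =>
    intro x hx hx1
    rcases hx.succ_cases with rfl | hex
    · exact ⟨∅, by simp, by simp, by simp⟩
    · have hn := Nat.find_spec hex
      have hmin : ∀ m, m < Nat.find hex → ¬ (0 < m ∧ UF k (x - 1 / m)) :=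
        fun m hm => Nat.find_min hex hm
      set n := Nat.find hex with hndef
      obtain ⟨hn0, hnU⟩ := hn
      have hnq : (0 : ℚ) < n := by exact_mod_cast hn0
      have hpos : (0 : ℚ) < 1 / n := by positivity
      have hn2 : 2 ≤ n := by
        by_contra hlt
        have h1 : n = 1 := by omega
        have := hnU.nonneg
        rw [h1] at this
        norm_num at this
        linarith
      obtain ⟨s, hs1, hs2, hs3⟩ := ih hnU (by linarith)
      by_cases hmem : n ∈ s
      · exfalso
        have hcard : (s.erase n).card + 1 ≤ k := by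
          rw [Finset.card_erase_add_one hmem]; exact hs3
        have hU : UF (s.erase n).card (x - 1 / n - 1 / n) := by
          have := UF.of_sum (s.erase n) (fun i => i)
            (fun i hi => lt_of_lt_of_le (by norm_num) (hs1 i (Finset.mem_of_mem_erase hi)))
          have e : ∑ i ∈ s.erase n, (1 : ℚ) / i = x - 1 / n - 1 / n := by
            rw [← hs2, ← Finset.add_sum_erase s _ hmem]; ring
          simpa only [e] using this
        rcases Nat.even_or_odd' n with ⟨m, hm | hm⟩
        · apply hmin m (by omega)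
          have hm0 : 0 < m := by omega
          refine ⟨hm0, ?_⟩
          have e : x - 1 / (m : ℚ) = x - 1 / n - 1 / n := by
            have : (m : ℚ) ≠ 0 := by positivity
            rw [hm]; push_cast; field_simp; ring
          rw [e]
          exact hU.mono (by omega)
        · apply hmin (m + 1) (by omega)
          refine ⟨by omega, ?_⟩
          have e : x - 1 / ((m + 1 : ℕ) : ℚ)
              = (x - 1 / n - 1 / n) + 1 / (((m + 1) * (2 * m + 1) : ℕ) : ℚ) := by
            rw [hm]; push_cast; field_simp; ring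
          rw [e]
          exact (hU.add (UF.single (by positivity))).mono hcard
      · refine ⟨insert n s, ?_, ?_, ?_⟩
        · intro a ha
          rcases Finset.mem_insert.1 ha with rfl | h
          · exact hn2
          · exact hs1 a h
        · rw [Finset.sum_insert hmem, hs2]; ring
        · rw [Finset.card_insert_of_notMem hmem]; omega

/-- If `g` divides a positive sum of `k` divisors of `M`, then `g / M` is a sum of `k` unit
fractions. -/
theorem UF.of_dvd_sum {ι : Type*} (s : Finset ι) (u : ι → ℕ) {g M : ℕ} (hM : 0 < M)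
    (hs : s.Nonempty) (hu : ∀ i ∈ s, u i ∣ M) (hg : g ∣ ∑ i ∈ s, u i) :
    UF s.card ((g : ℚ) / M) := by
  obtain ⟨d, hd⟩ := hg
  have hupos : ∀ i ∈ s, 0 < u i := fun i hi => Nat.pos_of_dvd_of_pos (hu i hi) hM
  have hsum : 0 < ∑ i ∈ s, u i := Finset.sum_pos hupos hs
  have hd0 : 0 < d := by
    rcases Nat.eq_zero_or_pos d with rfl | h
    · omega
    · exact h
  have h := UF.of_sum s (fun i => M / u i * d) (fun i hi =>
    Nat.mul_pos (Nat.div_pos (Nat.le_of_dvd hM (hu i hi)) (hupos i hi)) hd0)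
  have e : ∑ i ∈ s, (1 : ℚ) / ((M / u i * d : ℕ) : ℚ) = (g : ℚ) / M := by
    have hMq : (M : ℚ) ≠ 0 := by positivity
    have hdq : (d : ℚ) ≠ 0 := by positivity
    have : ∀ i ∈ s, (1 : ℚ) / ((M / u i * d : ℕ) : ℚ) = (u i : ℚ) / (M * d) := by
      intro i hi
      have hu0 : (u i : ℚ) ≠ 0 := by have := hupos i hi; positivity
      rw [Nat.cast_mul, Nat.cast_div (hu i hi) hu0]
      field_simp
    rw [Finset.sum_congr rfl this, ← Finset.sum_div, ← Nat.cast_sum, hd]
    push_cast
    field_simp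
  rwa [e] at h

end Vale.Agent.P012
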