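import Vale.Agent.P012.Fourier

/-!
Counting collisions among subset products of random primes.
-/

namespace Vale.Agent.P012

open Finset

theorem prod_ite_card {t : ℕ} (U : Finset (Fin t)) (a b : ℕ) :
    ∏ j : Fin t, (if j ∈ U then a else b) = a ^ U.card * b ^ (t - U.card) := by
  classical
  rw [Finset.prod_ite, Finset.prod_const, Finset.prod_const]
  congr 2
  · congr 1; ext j; simp
  · have : (univ.filter (fun j : Fin t => j ∉ U)) = Uᶜ := by ext j; simp
    rw [this, Finset.card_compl, Fintype.card_fin]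

theorem count_pair {t y q s : ℕ} (P : Finset ℕ) (hP : ∀ r ∈ P, r.Prime ∧ r ≤ y)
    (S S' U : Finset (Fin t)) (hUS : U ⊆ S) (hUS' : Disjoint U S') (hU : U.card = s) :
    ((Fintype.piFinset (fun _ : Fin t => P)).filter (fun p => (∀ j, Nat.Coprime (p j) q) ∧
      (∏ j ∈ S, p j) ≡ (∏ j ∈ S', p j) [MOD q])).card
      ≤ s ^ s * (P.card ^ (t - s) * (y ^ s / q + 1)) := by
  classical
  set A := (Fintype.piFinset (fun _ : Fin t => P)).filter (fun p => (∀ j, Nat.Coprime (p j) q) ∧
      (∏ j ∈ S, p j) ≡ (∏ j ∈ S', p j) [MOD q]) with hA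
  set f : (Fin t → ℕ) → (Fin t → ℕ) × ℕ :=
    fun p => (fun j => if j ∈ U then 0 else p j, (∏ j ∈ U, p j) / q) with hf
  set T : Finset ((Fin t → ℕ) × ℕ) :=
    (Fintype.piFinset (fun j : Fin t => if j ∈ U then ({0} : Finset ℕ) else P)) ×ˢ
      range (y ^ s / q + 1) with hT
  have hTcard : T.card = P.card ^ (t - s) * (y ^ s / q + 1) := by
    rw [hT, Finset.card_product, Finset.card_range, Fintype.card_piFinset]
    congr 1
    have : ∀ j : Fin t, (if j ∈ U then ({0} : Finset ℕ) else P).card
        = if j ∈ U then 1 else P.card := by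
      intro j; split_ifs <;> simp
    simp_rw [this]
    rw [prod_ite_card, hU]; simp
  have hmemP : ∀ p ∈ A, ∀ j, p j ∈ P := by
    intro p hp j
    exact Fintype.mem_piFinset.1 (Finset.mem_filter.1 hp).1 j
  rw [← hTcard]
  apply Finset.card_le_mul_card_image_of_maps_to (f := f)
  · intro p hp
    rw [hT, Finset.mem_product]
    constructor
    · rw [Fintype.mem_piFinset]
      intro j
      simp only [hf]
      split_ifs
      · simp
      · exact hmemP p hp j
    · rw [Finset.mem_range, Nat.lt_succ_iff]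
      apply Nat.div_le_div_right
      rw [← hU]
      exact Finset.prod_le_pow_card _ _ _ (fun j _ => (hP _ (hmemP p hp j)).2)
  · intro b _
    rcases (A.filter (fun p => f p = b)).eq_empty_or_nonempty with h0 | ⟨p0, hp0⟩
    · rw [h0]; simp
    · obtain ⟨hp0A, hp0b⟩ := Finset.mem_filter.1 hp0
      calc (A.filter (fun p => f p = b)).card
          ≤ (Fintype.piFinset (fun j : Fin t =>
              if j ∈ U then U.image p0 else ({p0 j} : Finset ℕ))).card := by
            apply Finset.card_le_card
            intro p hp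
            obtain ⟨hpA, hpb⟩ := Finset.mem_filter.1 hp
            have hfe : f p = f p0 := hpb.trans hp0b.symm
            have hout : ∀ j, j ∉ U → p j = p0 j := by
              intro j hj
              have := congrFun (congrArg Prod.fst hfe) j
              simpa [hf, hj] using this
            have hquot : (∏ j ∈ U, p j) / q = (∏ j ∈ U, p0 j) / q := congrArg Prod.snd hfe
            have hS' : ∏ j ∈ S', p j = ∏ j ∈ S', p0 j :=
              Finset.prod_congr rfl (fun j hj => hout j (Finset.disjoint_right.1 hUS' hj))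
            have hSU : ∏ j ∈ S \ U, p j = ∏ j ∈ S \ U, p0 j :=
              Finset.prod_congr rfl (fun j hj => hout j (Finset.mem_sdiff.1 hj).2)
            have h1 := (Finset.mem_filter.1 hpA).2.2
            have h2 := (Finset.mem_filter.1 hp0A).2.2
            have hcop : Nat.Coprime q (∏ j ∈ S \ U, p0 j) :=
              Nat.Coprime.prod_right (fun j _ => ((Finset.mem_filter.1 hp0A).2.1 j).symm)
            rw [← Finset.prod_sdiff hUS] at h1 h2
            rw [hS', hSU] at h1
            have h3 : (∏ j ∈ U, p j) ≡ (∏ j ∈ U, p0 j) [MOD q] :=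
              Nat.ModEq.cancel_left_of_coprime hcop (h1.trans h2.symm)
            have h4 : ∏ j ∈ U, p j = ∏ j ∈ U, p0 j := by
              rw [← Nat.div_add_mod (∏ j ∈ U, p j) q, ← Nat.div_add_mod (∏ j ∈ U, p0 j) q,
                hquot, h3]
            rw [Fintype.mem_piFinset]
            intro j
            split_ifs with hj
            · have hpr := (hP _ (hmemP p hpA j)).1
              have hd : p j ∣ ∏ i ∈ U, p0 i := h4 ▸ Finset.dvd_prod_of_mem _ hj
              obtain ⟨i, hi, hdi⟩ := (Prime.dvd_finsetProd_iff hpr.prime _).1 hd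
              have := (Nat.prime_dvd_prime_iff_eq hpr (hP _ (hmemP p0 hp0A i)).1).1 hdi
              exact Finset.mem_image.2 ⟨i, hi, this.symm⟩
            · simp [hout j hj]
        _ ≤ s ^ s := by
            rw [Fintype.card_piFinset]
            have : ∀ j : Fin t, (if j ∈ U then U.image p0 else ({p0 j} : Finset ℕ)).card
                = if j ∈ U then (U.image p0).card else 1 := by
              intro j; split_ifs <;> simp
            simp_rw [this]
            rw [prod_ite_card, hU, one_pow, mul_one]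
            exact Nat.pow_le_pow_left (hU ▸ Finset.card_image_le) _

theorem sum_half_pow (t : ℕ) :
    ∑ x : Finset (Fin t) × Finset (Fin t), (1 / 2 : ℝ) ^ (x.1 \ x.2).card = (7 / 2 : ℝ) ^ t := by
  classical
  rw [← Finset.univ_product_univ, Finset.sum_product_right]
  have inner : ∀ S' : Finset (Fin t), ∑ S : Finset (Fin t), (1 / 2 : ℝ) ^ (S \ S').card
      = (2 : ℝ) ^ S'.card * (3 / 2 : ℝ) ^ (t - S'.card) := by
    intro S'
    have h1 : ∀ S : Finset (Fin t), (1 / 2 : ℝ) ^ (S \ S').card
        = ∏ j ∈ S, (if j ∈ S' then (1 : ℝ) else 1 / 2) := by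
      intro S
      rw [Finset.prod_ite, Finset.prod_const_one, one_mul, Finset.prod_const]
      congr 2
      ext j; simp
    simp_rw [h1]
    rw [← Finset.powerset_univ, ← Finset.prod_one_add]
    have h2 : ∀ j : Fin t, (1 + if j ∈ S' then (1 : ℝ) else 1 / 2)
        = if j ∈ S' then (2 : ℝ) else 3 / 2 := by
      intro j; split_ifs <;> norm_num
    simp_rw [h2]
    rw [Finset.prod_ite, Finset.prod_const, Finset.prod_const]
    congr 2
    · congr 1; ext j; simp
    · have : (univ.filter (fun j : Fin t => j ∉ S')) = S'ᶜ := by ext j; simp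
      rw [this, Finset.card_compl, Fintype.card_fin]
  simp_rw [inner]
  rw [Fin.sum_pow_mul_eq_add_pow]
  norm_num

theorem tail (t s : ℕ) :
    (((univ : Finset (Finset (Fin t) × Finset (Fin t))).filter
      (fun x => (x.1 \ x.2).card < s)).card : ℝ) ≤ 2 ^ s * (7 / 2 : ℝ) ^ t := by
  classical
  rw [← sum_half_pow, Finset.mul_sum, Finset.card_filter]
  push_cast
  apply Finset.sum_le_sum
  intro x _
  split_ifs with h
  · have : (2 : ℝ) ^ (x.1 \ x.2).card ≤ 2 ^ s := pow_le_pow_right₀ (by norm_num) h.le
    rw [one_div, inv_pow, ← div_eq_mul_inv, le_div_iff₀ (by positivity)]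
    linarith
  · positivity

theorem expect_coll {t y q s : ℕ} (P : Finset ℕ) (hP : ∀ r ∈ P, r.Prime ∧ r ≤ y) :
    ∑ p ∈ (Fintype.piFinset (fun _ : Fin t => P)).filter (fun p => ∀ j, Nat.Coprime (p j) q),
      (coll (fun S : Finset (Fin t) => ∏ j ∈ S, p j) q : ℝ)
      ≤ (P.card : ℝ) ^ t * (2 ^ s * (7 / 2 : ℝ) ^ t)
        + 4 ^ t * ((s ^ s * (P.card ^ (t - s) * (y ^ s / q + 1)) : ℕ) : ℝ) := by
  classical
  set Ω := Fintype.piFinset (fun _ : Fin t => P) with hΩ
  have hΩc : Ω.card = P.card ^ t := by
    rw [hΩ, Fintype.card_piFinset]; simp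
  set B : ℕ := s ^ s * (P.card ^ (t - s) * (y ^ s / q + 1)) with hB
  have h1 : ∑ p ∈ Ω.filter (fun p => ∀ j, Nat.Coprime (p j) q),
      coll (fun S : Finset (Fin t) => ∏ j ∈ S, p j) q
      = ∑ x : Finset (Fin t) × Finset (Fin t), (Ω.filter (fun p => (∀ j, Nat.Coprime (p j) q) ∧
          (∏ j ∈ x.1, p j) ≡ (∏ j ∈ x.2, p j) [MOD q])).card := by
    unfold coll
    simp_rw [Finset.card_filter]
    rw [Finset.sum_comm]
    apply Finset.sum_congr rfl
    intro x _
    rw [Finset.sum_filter]
    apply Finset.sum_congr rfl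
    intro p _
    by_cases h : ∀ j, Nat.Coprime (p j) q
    · rw [if_pos h]
      exact if_congr ⟨fun hh => ⟨h, hh⟩, fun hh => hh.2⟩ rfl rfl
    · rw [if_neg h, if_neg (fun hh => h hh.1)]
  have h2 : ∀ x : Finset (Fin t) × Finset (Fin t),
      (Ω.filter (fun p => (∀ j, Nat.Coprime (p j) q) ∧
          (∏ j ∈ x.1, p j) ≡ (∏ j ∈ x.2, p j) [MOD q])).card
        ≤ (if (x.1 \ x.2).card < s then P.card ^ t else 0) + B := by
    intro x
    split_ifs with h
    · have := Finset.card_filter_le Ω (fun p => (∀ j, Nat.Coprime (p j) q) ∧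
          (∏ j ∈ x.1, p j) ≡ (∏ j ∈ x.2, p j) [MOD q])
      omega
    · push Not at h
      obtain ⟨U, hU1, hU2⟩ := Finset.exists_subset_card_eq h
      rw [zero_add]
      refine count_pair P hP x.1 x.2 U (hU1.trans Finset.sdiff_subset) ?_ hU2
      exact Finset.disjoint_left.2 (fun j hj => (Finset.mem_sdiff.1 (hU1 hj)).2)
  have h3 : ∑ x : Finset (Fin t) × Finset (Fin t),
      ((if (x.1 \ x.2).card < s then P.card ^ t else 0) + B)
      = P.card ^ t * ((univ : Finset (Finset (Fin t) × Finset (Fin t))).filter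
          (fun x => (x.1 \ x.2).card < s)).card + 4 ^ t * B := by
    rw [Finset.sum_add_distrib, ← Finset.sum_filter, Finset.sum_const, Finset.sum_const,
      Finset.card_univ, Fintype.card_prod, Fintype.card_finset, Fintype.card_fin, smul_eq_mul,
      smul_eq_mul, mul_comm, ← mul_pow]
    rfl
  have h4 := (h1.le.trans (Finset.sum_le_sum (fun x _ => h2 x))).trans h3.le
  have h5 : (∑ p ∈ Ω.filter (fun p => ∀ j, Nat.Coprime (p j) q),
      (coll (fun S : Finset (Fin t) => ∏ j ∈ S, p j) q : ℝ))
      ≤ (P.card : ℝ) ^ t * (((univ : Finset (Finset (Fin t) × Finset (Fin t))).filter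
          (fun x => (x.1 \ x.2).card < s)).card : ℝ) + 4 ^ t * (B : ℝ) := by
    exact_mod_cast h4
  refine h5.trans ?_
  gcongr
  exact tail t s

/-- An arithmetic progression with difference coprime to its first term meets multiples of `q`
at most `N / q + 1` times among its first `N` terms. -/
theorem count_multiples {D ρ q N : ℕ} (hcop : Nat.Coprime ρ D) :
    ((range N).filter (fun i => q ∣ D * i + ρ)).card ≤ N / q + 1 := by
  rw [← Finset.card_range (N / q + 1)]
  apply Finset.card_le_card_of_injOn (fun i => i / q)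
  · intro i hi
    have := (Finset.mem_range.1 (Finset.mem_filter.1 (Finset.mem_coe.1 hi)).1)
    rw [Finset.mem_coe, Finset.mem_range, Nat.lt_succ_iff]
    exact Nat.div_le_div_right this.le
  · intro i hi j hj hij
    have hi' := (Finset.mem_filter.1 (Finset.mem_coe.1 hi)).2
    have hj' := (Finset.mem_filter.1 (Finset.mem_coe.1 hj)).2
    have hqD : Nat.Coprime q D := by
      have h1 : Nat.Coprime (D * i + ρ) D := by
        rw [add_comm, Nat.coprime_add_mul_left_left]; exact hcop
      exact Nat.Coprime.coprime_dvd_left hi' h1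
    have h2 : D * i + ρ ≡ D * j + ρ [MOD q] :=
      ((Nat.modEq_zero_iff_dvd).2 hi').trans ((Nat.modEq_zero_iff_dvd).2 hj').symm
    have h3 : i ≡ j [MOD q] :=
      Nat.ModEq.cancel_left_of_coprime hqD (Nat.ModEq.add_right_cancel' _ h2)
    have hij' : i / q = j / q := hij
    rw [← Nat.div_add_mod i q, ← Nat.div_add_mod j q, hij', h3]

end Vale.Agent.P012
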