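import Mathlib

/-!
The bilinear exponential sum argument: if a family of integers has few collisions modulo every
divisor `q > 1` of `g`, then `g` divides a sum of twelve products of two members of the family.
-/

namespace Vale.Agent.P012

open Finset

/-- Number of ordered pairs of indices whose values are congruent modulo `q`. -/
def coll {ι : Type*} [Fintype ι] (V : ι → ℕ) (q : ℕ) : ℕ :=
  (Finset.univ.filter (fun x : ι × ι => V x.1 ≡ V x.2 [MOD q])).card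

theorem geom_root {η : ℂ} {q : ℕ} (h : η ^ q = 1) :
    ∑ x ∈ range q, η ^ x = if η = 1 then (q : ℂ) else 0 := by
  split_ifs with h1
  · simp [h1]
  · rw [geom_sum_eq h1, h]; simp

theorem parseval {ι : Type*} [Fintype ι] (V : ι → ℕ) {ζ : ℂ} {q : ℕ} (hq : 0 < q)
    (hζ : IsPrimitiveRoot ζ q) :
    ∑ x ∈ range q, ‖∑ i, ζ ^ (x * V i)‖ ^ 2 = (q : ℝ) * coll V q := by
  classical
  have hfin : IsOfFinOrder ζ := isOfFinOrder_iff_pow_eq_one.2 ⟨q, hq, hζ.pow_eq_one⟩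
  have hnorm : ‖ζ‖ = 1 := hζ.norm'_eq_one hq.ne'
  have hconj : ∀ n : ℕ, ζ ^ n * (starRingEnd ℂ) (ζ ^ n) = 1 := by
    intro n
    rw [Complex.mul_conj, Complex.normSq_eq_norm_sq, norm_pow, hnorm]; simp
  have key : ∀ a b : ℕ, ∑ x ∈ range q, ζ ^ (x * a) * (starRingEnd ℂ) (ζ ^ (x * b))
      = if a ≡ b [MOD q] then (q : ℂ) else 0 := by
    intro a b
    have e : ∀ x : ℕ, ζ ^ (x * a) * (starRingEnd ℂ) (ζ ^ (x * b))
        = (ζ ^ a * (starRingEnd ℂ) (ζ ^ b)) ^ x := by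
      intro x
      rw [mul_pow, ← map_pow, ← pow_mul, ← pow_mul, mul_comm a x, mul_comm b x]
    simp_rw [e]
    have hpow : (ζ ^ a * (starRingEnd ℂ) (ζ ^ b)) ^ q = 1 := by
      rw [mul_pow, ← map_pow, ← pow_mul, ← pow_mul, mul_comm a q, mul_comm b q, pow_mul, pow_mul,
        hζ.pow_eq_one]
      simp
    rw [geom_root hpow]
    have hiff : ζ ^ a * (starRingEnd ℂ) (ζ ^ b) = 1 ↔ a ≡ b [MOD q] := by
      rw [hζ.eq_orderOf, ← hfin.pow_eq_pow_iff_modEq]
      constructor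
      · intro h
        have hb := hconj b
        have hne : (starRingEnd ℂ) (ζ ^ b) ≠ 0 := by
          intro h0; rw [h0] at hb; simp at hb
        exact mul_right_cancel₀ hne (h.trans hb.symm)
      · intro h; rw [h]; exact hconj b
    simp only [hiff]
  have main : ((∑ x ∈ range q, ‖∑ i, ζ ^ (x * V i)‖ ^ 2 : ℝ) : ℂ) = ((q : ℝ) * coll V q : ℝ) := by
    push_cast
    have e : ∀ x : ℕ, ((‖∑ i, ζ ^ (x * V i)‖ : ℝ) : ℂ) ^ 2
        = ∑ y : ι × ι, ζ ^ (x * V y.1) * (starRingEnd ℂ) (ζ ^ (x * V y.2)) := by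
      intro x
      rw [← Complex.ofReal_pow, ← Complex.normSq_eq_norm_sq, ← Complex.mul_conj, map_sum,
        Finset.sum_mul_sum, ← Finset.univ_product_univ, Finset.sum_product]
    simp_rw [e]
    rw [Finset.sum_comm]
    simp_rw [key]
    rw [← Finset.sum_filter, Finset.sum_const, coll, nsmul_eq_mul, mul_comm]
  exact_mod_cast main

theorem coll_eq_sum_sq {ι : Type*} [Fintype ι] (V : ι → ℕ) {q : ℕ} (hq : 0 < q) :
    (coll V q : ℝ) = ∑ x ∈ range q, ((univ.filter (fun i => V i % q = x)).card : ℝ) ^ 2 := by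
  classical
  have h : coll V q = ∑ x ∈ range q, (univ.filter (fun i => V i % q = x)).card ^ 2 := by
    unfold coll
    rw [Finset.card_eq_sum_card_fiberwise (f := fun y : ι × ι => V y.1 % q) (t := range q)
      (fun y _ => by simpa using Nat.mod_lt _ hq)]
    apply Finset.sum_congr rfl
    intro x _
    rw [sq, ← Finset.card_product]
    congr 1
    ext y
    rw [Finset.mem_filter, Finset.mem_filter, Finset.mem_product, Finset.mem_filter,
      Finset.mem_filter]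
    simp only [Finset.mem_univ, true_and, Nat.ModEq]
    constructor
    · rintro ⟨h1, h2⟩; exact ⟨h2, h1 ▸ h2⟩
    · rintro ⟨h1, h2⟩; exact ⟨h1.trans h2.symm, h1⟩
  exact_mod_cast h

theorem bilinear {ι : Type*} [Fintype ι] (V : ι → ℕ) {ζ : ℂ} {q : ℕ} (hq : 0 < q)
    (hζ : IsPrimitiveRoot ζ q) :
    ‖∑ y : ι × ι, ζ ^ (V y.1 * V y.2)‖ ^ 2 ≤ (q : ℝ) * (coll V q : ℝ) ^ 2 := by
  classical
  set F : ℕ → ℝ := fun x => ‖∑ i, ζ ^ (x * V i)‖ with hF
  have hper : ∀ a : ℕ, F a = F (a % q) := by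
    intro a
    simp only [hF]
    congr 1
    apply Finset.sum_congr rfl
    intro i _
    conv_lhs => rw [← Nat.div_add_mod a q]
    rw [add_mul, pow_add, mul_assoc, pow_mul, hζ.pow_eq_one, one_pow, one_mul]
  have h1 : ‖∑ y : ι × ι, ζ ^ (V y.1 * V y.2)‖ ≤ ∑ i, F (V i % q) := by
    rw [← Finset.univ_product_univ, Finset.sum_product]
    refine (norm_sum_le _ _).trans (le_of_eq ?_)
    apply Finset.sum_congr rfl
    intro i _
    rw [← hper]
  have h2 : ∑ i, F (V i % q)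
      = ∑ x ∈ range q, ((univ.filter (fun i => V i % q = x)).card : ℝ) * F x := by
    rw [← Finset.sum_fiberwise_of_maps_to' (s := univ) (t := range q) (g := fun i => V i % q)
      (fun i _ => by simpa using Nat.mod_lt _ hq) F]
    apply Finset.sum_congr rfl
    intro x _
    rw [Finset.sum_const, nsmul_eq_mul]
  have h3 := Finset.sum_mul_sq_le_sq_mul_sq (range q)
    (fun x => ((univ.filter (fun i => V i % q = x)).card : ℝ)) F
  rw [← coll_eq_sum_sq V hq, ← h2] at h3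
  have h4 : ∑ x ∈ range q, F x ^ 2 = (q : ℝ) * coll V q := parseval V hq hζ
  rw [h4] at h3
  calc ‖∑ y : ι × ι, ζ ^ (V y.1 * V y.2)‖ ^ 2 ≤ (∑ i, F (V i % q)) ^ 2 := by
        gcongr
    _ ≤ _ := h3
    _ = _ := by ring

theorem exists_dvd_sum {ι : Type*} [Fintype ι] [Nonempty ι] (V : ι → ℕ) {g : ℕ} (hg : 0 < g)
    (hV : ∀ q : ℕ, q ∣ g → 1 < q →
      (coll V q : ℝ) ^ 4 * (q : ℝ) ^ 3 ≤ (Fintype.card ι : ℝ) ^ 8) :
    ∃ f : Fin 12 → ι × ι, g ∣ ∑ l, V (f l).1 * V (f l).2 := by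
  classical
  by_contra hno
  push Not at hno
  obtain ⟨ω, hω⟩ : ∃ ω : ℂ, IsPrimitiveRoot ω g := ⟨_, Complex.isPrimitiveRoot_exp g hg.ne'⟩
  set N : ℝ := (Fintype.card ι : ℝ) with hN
  have hN0 : 0 < N := by
    have := Fintype.card_pos (α := ι)
    rw [hN]; exact_mod_cast this
  set S : ℕ → ℂ := fun h => ∑ y : ι × ι, (ω ^ h) ^ (V y.1 * V y.2) with hS
  have hzero : ∑ h ∈ range g, S h ^ 12 = 0 := by
    simp only [hS]
    simp_rw [Finset.sum_pow']
    rw [Finset.sum_comm]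
    apply Finset.sum_eq_zero
    intro f _
    have e : ∀ h : ℕ, ∏ l : Fin 12, (ω ^ h) ^ (V (f l).1 * V (f l).2)
        = (ω ^ (∑ l, V (f l).1 * V (f l).2)) ^ h := by
      intro h
      rw [Finset.prod_pow_eq_pow_sum, ← pow_mul, ← pow_mul, mul_comm]
    simp_rw [e]
    have hp : (ω ^ (∑ l, V (f l).1 * V (f l).2)) ^ g = 1 := by
      rw [← pow_mul, mul_comm, pow_mul, hω.pow_eq_one, one_pow]
    rw [geom_root hp, if_neg]
    intro h1
    exact hno f ((hω.pow_eq_one_iff_dvd _).1 h1)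
  have hS0 : S 0 ^ 12 = ((N ^ 24 : ℝ) : ℂ) := by
    simp only [hS, pow_zero, one_pow, Finset.sum_const, Finset.card_univ, Fintype.card_prod,
      nsmul_eq_mul, mul_one, hN]
    push_cast
    ring
  have hsplit : ∑ h ∈ range g, S h ^ 12 = S 0 ^ 12 + ∑ h ∈ Ico 1 g, S h ^ 12 := by
    rw [Finset.range_eq_Ico, Finset.sum_eq_sum_Ico_succ_bot hg]
  have hle : N ^ 24 ≤ ∑ h ∈ Ico 1 g, ‖S h‖ ^ 12 := by
    have e : ((N ^ 24 : ℝ) : ℂ) = - ∑ h ∈ Ico 1 g, S h ^ 12 := by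
      rw [← hS0]; rw [hzero] at hsplit; linear_combination -hsplit
    have : ‖((N ^ 24 : ℝ) : ℂ)‖ = N ^ 24 := by
      rw [Complex.norm_real, Real.norm_of_nonneg (by positivity)]
    rw [← this, e, norm_neg]
    refine (norm_sum_le _ _).trans (le_of_eq ?_)
    simp only [norm_pow]
  -- the order of `ω ^ h`
  have hord : ∀ h ∈ Ico 1 g, orderOf (ω ^ h) ∈ Ioc 1 g ∧ orderOf (ω ^ h) ∣ g := by
    intro h hh
    rw [Finset.mem_Ico] at hh
    have hdvd : orderOf (ω ^ h) ∣ g := by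
      apply orderOf_dvd_of_pow_eq_one
      rw [← pow_mul, mul_comm, pow_mul, hω.pow_eq_one, one_pow]
    have hpos : 0 < orderOf (ω ^ h) := Nat.pos_of_dvd_of_pos hdvd hg
    have hne : orderOf (ω ^ h) ≠ 1 := by
      intro h1
      rw [orderOf_eq_one_iff] at h1
      have := Nat.le_of_dvd (by omega) ((hω.pow_eq_one_iff_dvd _).1 h1)
      omega
    exact ⟨Finset.mem_Ioc.2 ⟨by omega, Nat.le_of_dvd hg hdvd⟩, hdvd⟩
  have hterm : ∀ h ∈ Ico 1 g, ‖S h‖ ^ 12 ≤ N ^ 24 / ((orderOf (ω ^ h) : ℕ) : ℝ) ^ 3 := by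
    intro h hh
    obtain ⟨h1, h2⟩ := hord h hh
    set q := orderOf (ω ^ h) with hq
    have hq1 : 1 < q := (Finset.mem_Ioc.1 h1).1
    have hqR : (0 : ℝ) < q := by exact_mod_cast (by omega : 0 < q)
    have hb := bilinear V (by omega : 0 < q) (IsPrimitiveRoot.orderOf (ω ^ h))
    have hc := hV q h2 hq1
    rw [le_div_iff₀ (by positivity)]
    have h5 : (‖S h‖ ^ 12 * (q : ℝ) ^ 3) ≤ ((coll V q : ℝ) ^ 4 * (q : ℝ) ^ 3) ^ 3 := by
      calc ‖S h‖ ^ 12 * (q : ℝ) ^ 3 = (‖S h‖ ^ 2) ^ 6 * (q : ℝ) ^ 3 := by ring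
        _ ≤ ((q : ℝ) * (coll V q : ℝ) ^ 2) ^ 6 * (q : ℝ) ^ 3 := by gcongr
        _ = _ := by ring
    calc _ ≤ _ := h5
      _ ≤ (N ^ 8) ^ 3 := by gcongr
      _ = N ^ 24 := by ring
  have hfib : ∀ q ∈ Ioc 1 g, ((Ico 1 g).filter (fun h => orderOf (ω ^ h) = q)).card ≤ q := by
    intro q hq
    have hq0 : 0 < q := by have := (Finset.mem_Ioc.1 hq).1; omega
    calc _ ≤ (primitiveRoots q ℂ).card := by
          apply Finset.card_le_card_of_injOn (fun h => ω ^ h)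
          · intro h hh
            have hh' := (Finset.mem_filter.1 (Finset.mem_coe.1 hh)).2
            rw [Finset.mem_coe, mem_primitiveRoots hq0, ← hh']
            exact IsPrimitiveRoot.orderOf _
          · intro a ha b hb hab
            have ha' := (Finset.mem_Ico.1 (Finset.mem_filter.1 (Finset.mem_coe.1 ha)).1).2
            have hb' := (Finset.mem_Ico.1 (Finset.mem_filter.1 (Finset.mem_coe.1 hb)).1).2
            exact hω.pow_inj ha' hb' hab
      _ = q.totient := Complex.card_primitiveRoots q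
      _ ≤ q := Nat.totient_le q
  have hsum : ∑ h ∈ Ico 1 g, N ^ 24 / ((orderOf (ω ^ h) : ℕ) : ℝ) ^ 3
      ≤ ∑ q ∈ Ioc 1 g, N ^ 24 * (((q : ℝ)) ^ 2)⁻¹ := by
    rw [← Finset.sum_fiberwise_of_maps_to' (s := Ico 1 g) (t := Ioc 1 g)
      (g := fun h => orderOf (ω ^ h)) (fun h hh => (hord h hh).1)
      (fun q : ℕ => N ^ 24 / (q : ℝ) ^ 3)]
    apply Finset.sum_le_sum
    intro q hq
    have hq0 : (0 : ℝ) < q := by
      have := (Finset.mem_Ioc.1 hq).1; exact_mod_cast (by omega : 0 < q)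
    rw [Finset.sum_const, nsmul_eq_mul]
    have := hfib q hq
    calc _ ≤ (q : ℝ) * (N ^ 24 / (q : ℝ) ^ 3) := by
          gcongr
      _ = _ := by field_simp
  have hinv : ∑ q ∈ Ioc 1 g, (((q : ℝ)) ^ 2)⁻¹ ≤ ((1 : ℕ) : ℝ)⁻¹ - (g : ℝ)⁻¹ :=
    sum_Ioc_inv_sq_le_sub one_ne_zero hg
  have hgR : (0 : ℝ) < (g : ℝ)⁻¹ := by positivity
  have hfinal : N ^ 24 < N ^ 24 := by
    calc N ^ 24 ≤ _ := hle
      _ ≤ _ := Finset.sum_le_sum hterm
      _ ≤ _ := hsum
      _ = N ^ 24 * ∑ q ∈ Ioc 1 g, (((q : ℝ)) ^ 2)⁻¹ := by rw [Finset.mul_sum]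
      _ < N ^ 24 * 1 := by
          gcongr
          simp only [Nat.cast_one, inv_one] at hinv
          linarith
      _ = N ^ 24 := mul_one _
  exact lt_irrefl _ hfinal

end Vale.Agent.P012
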