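import Vale.Agent.P012.Basic

/-!
The modified greedy algorithm and the digit expansion along divisors.
-/

namespace Vale.Agent.P012

open Finset

/-- The divisors of `P` meet every window `(T/4, T]` with `1 ≤ T < 4 P`. -/
def Cov (P : ℕ) : Prop :=
  ∀ T : ℚ, 1 ≤ T → T < 4 * P → ∃ f : ℕ, f ∣ P ∧ (f : ℚ) ≤ T ∧ T < 4 * f

theorem cov_one : Cov 1 := by
  intro T h1 h2
  exact ⟨1, dvd_rfl, by simpa using h1, by simpa using h2⟩

theorem Cov.mul {P n : ℕ} (h : Cov P) (hn : 0 < n) (hnP : n ≤ 4 * P) : Cov (P * n) := by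
  intro T h1 h2
  have hnq : (0 : ℚ) < n := by exact_mod_cast hn
  by_cases hT : T < 4 * P
  · obtain ⟨f, hf1, hf2, hf3⟩ := h T h1 hT
    exact ⟨f, hf1.mul_right n, hf2, hf3⟩
  · push Not at hT
    have hnP' : (n : ℚ) ≤ 4 * P := by exact_mod_cast hnP
    obtain ⟨f, hf1, hf2, hf3⟩ := h (T / n) (by rw [le_div_iff₀ hnq]; linarith)
      (by rw [div_lt_iff₀ hnq]; push_cast at h2; linarith)
    refine ⟨f * n, Nat.mul_dvd_mul_right hf1 n, ?_, ?_⟩
    · push_cast; rwa [le_div_iff₀ hnq] at hf2
    · push_cast; rw [div_lt_iff₀ hnq] at hf3; linarith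

/-- The modified greedy algorithm. -/
theorem greedy {a b : ℕ} (ha : 0 < a) (hab : a < b) (hba : b ≤ 2 * a) (J : ℕ) :
    ∃ A P : ℕ, a ≤ A ∧ A ≤ 2 ^ J * a ∧ A < b * P ∧ Cov P ∧ 3 ^ J ≤ P ∧
      (4 ≤ J → 2 ^ (2 ^ (J - 4) + J + 1) ≤ P) ∧
      UF J ((a : ℚ) / b - (A : ℚ) / (b * P)) := by
  induction J with
  | zero =>
    exact ⟨a, 1, le_rfl, by simp, by simpa using hab, cov_one, by simp, by omega,
      by simpa using UF.zero 0⟩
  | succ J ih =>
    obtain ⟨A, P, h1, h2, h3, h4, h5, h6, h7⟩ := ih
    have hA : 0 < A := by omega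
    have hP : 0 < P := lt_of_lt_of_le (by positivity) h5
    have hb : 0 < b := by omega
    set d := b * P / A with hd
    have hdm : A * d + (b * P) % A = b * P := Nat.div_add_mod _ _
    have hmod : (b * P) % A < A := Nat.mod_lt _ hA
    set r := (b * P) % A with hr
    have hd1 : 1 ≤ d := by
      rw [hd]; exact (Nat.le_div_iff_mul_le hA).2 (by omega)
    have hd2 : d ≤ 2 * P := by
      have : A * d ≤ A * (2 * P) := by nlinarith
      exact Nat.le_of_mul_le_mul_left this hA
    refine ⟨2 * A - r, P * (d + 2), by omega, ?_, ?_, h4.mul (by omega) (by omega), ?_, ?_, ?_⟩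
    · have : 2 ^ (J + 1) * a = 2 * (2 ^ J * a) := by ring
      omega
    · have : 2 * A < b * (P * (d + 2)) := by nlinarith
      omega
    · rw [pow_succ]; exact Nat.mul_le_mul h5 (by omega)
    · intro hJ
      rcases Nat.lt_or_ge J 4 with hlt | hge
      · have hJ3 : J = 3 := by omega
        subst hJ3
        have : 3 ^ 3 * 3 ≤ P * (d + 2) := Nat.mul_le_mul h5 (by omega)
        norm_num at this ⊢
        omega
      · have h6' := h6 hge
        have key : P ≤ 2 ^ J * (d + 2) := by
          have h8 : b * P ≤ b * (2 ^ J * (d + 2)) := by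
            calc b * P ≤ A * (d + 2) := by nlinarith
              _ ≤ (2 ^ J * a) * (d + 2) := Nat.mul_le_mul_right _ h2
              _ ≤ (2 ^ J * b) * (d + 2) := by gcongr
              _ = b * (2 ^ J * (d + 2)) := by ring
          exact Nat.le_of_mul_le_mul_left h8 hb
        have h9 : 2 ^ J * 2 ^ (2 ^ (J + 1 - 4) + (J + 1) + 1) ≤ 2 ^ J * (P * (d + 2)) := by
          have e : J + 1 - 4 = (J - 4) + 1 := by omega
          calc 2 ^ J * 2 ^ (2 ^ (J + 1 - 4) + (J + 1) + 1)
              = 2 ^ (2 ^ (J - 4) + J + 1) * 2 ^ (2 ^ (J - 4) + J + 1) := by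
                rw [e, ← pow_add, ← pow_add]; congr 1; rw [pow_succ]; ring
            _ ≤ P * P := Nat.mul_le_mul h6' h6'
            _ ≤ P * (2 ^ J * (d + 2)) := Nat.mul_le_mul_left _ key
            _ = 2 ^ J * (P * (d + 2)) := by ring
        exact Nat.le_of_mul_le_mul_left h9 (by positivity)
    · have hs := h7.add (UF.single (n := d + 2) (by omega))
      have e : (a : ℚ) / b - ((2 * A - r : ℕ) : ℚ) / (b * ((P * (d + 2) : ℕ) : ℚ))
          = (a : ℚ) / b - (A : ℚ) / (b * P) + 1 / ((d + 2 : ℕ) : ℚ) := by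
        have hr2 : r ≤ 2 * A := by omega
        have hdm' : (A : ℚ) * d + r = b * P := by exact_mod_cast hdm
        have hbq : (b : ℚ) ≠ 0 := by positivity
        have hPq : (P : ℚ) ≠ 0 := by positivity
        rw [Nat.cast_sub hr2]
        push_cast
        have hr' : (r : ℚ) = b * P - A * d := by linarith
        rw [hr']
        field_simp
        ring
      rw [e]
      exact hs

/-- Digit expansion with place values dividing `P` and digits in `[C, 4C)`. -/
theorem digits {C M P K : ℕ} (hC : 0 < C) (hP : 0 < P) (hcov : Cov P)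
    (hdig : ∀ c : ℕ, C ≤ c → c < 4 * C → UF K ((c : ℚ) / M)) (m : ℕ) :
    ∀ A : ℕ, C ≤ A → A - C < C ^ (m + 1) → A - C < 4 * C * P →
      UF (K * (m + 1)) ((A : ℚ) / M / P) := by
  induction m with
  | zero =>
    intro A h1 h2 _
    simp only [zero_add, pow_one, mul_one] at h2 ⊢
    exact (hdig A h1 (by omega)).div hP
  | succ m ih =>
    intro A h1 h2 h3
    by_cases hA : A < 2 * C
    · exact ((hdig A h1 (by omega)).div hP).mono (Nat.le_mul_of_pos_right _ (by omega))
    · push Not at hA
      have hCq : (0 : ℚ) < C := by exact_mod_cast hC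
      set B := A - C with hB
      have hBC : C ≤ B := by omega
      obtain ⟨f, hf1, hf2, hf3⟩ := hcov ((B : ℚ) / C)
        (by rw [le_div_iff₀ hCq, one_mul]; exact_mod_cast hBC)
        (by rw [div_lt_iff₀ hCq]
            have : (B : ℚ) < 4 * C * P := by exact_mod_cast h3
            linarith)
      have hf0 : 0 < f := Nat.pos_of_dvd_of_pos hf1 hP
      have hf2' : f * C ≤ B := by
        rw [le_div_iff₀ hCq] at hf2; exact_mod_cast hf2
      have hf3' : B < 4 * f * C := by
        rw [div_lt_iff₀ hCq] at hf3; exact_mod_cast hf3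
      have hdm : f * (B / f) + B % f = B := Nat.div_add_mod _ _
      have hmod : B % f < f := Nat.mod_lt _ hf0
      have hc1 : C ≤ B / f := (Nat.le_div_iff_mul_le hf0).2 (by nlinarith)
      have hc2 : B / f < 4 * C := (Nat.div_lt_iff_lt_mul hf0).2 (by nlinarith)
      have hfl : f < C ^ (m + 1) := by
        have : f * C < C ^ (m + 1) * C := by rw [← pow_succ]; omega
        exact Nat.lt_of_mul_lt_mul_right this
      have hrest := ih (C + B % f) (by omega) (by omega)
        (by have := Nat.mod_le B f; omega)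
      obtain ⟨e, he⟩ := hf1
      have he0 : 0 < e := by
        rcases Nat.eq_zero_or_pos e with rfl | h
        · omega
        · exact h
      have hfirst := (hdig (B / f) hc1 hc2).div he0
      have hsum := hfirst.add hrest
      have e1 : ((B / f : ℕ) : ℚ) / M / e + ((C + B % f : ℕ) : ℚ) / M / P = (A : ℚ) / M / P := by
        have hA' : (A : ℚ) = C + (f * ((B / f : ℕ) : ℚ) + ((B % f : ℕ) : ℚ)) := by
          have : A = C + (f * (B / f) + B % f) := by omega
          exact_mod_cast this
        have hfq : (f : ℚ) ≠ 0 := by positivity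
        have heq : (e : ℚ) ≠ 0 := by positivity
        rw [hA', he]
        rcases eq_or_ne (M : ℚ) 0 with hM | hM
        · simp [hM]
        · push_cast
          field_simp
          ring
      rw [e1] at hsum
      exact hsum.mono (by ring_nf; omega)

end Vale.Agent.P012
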