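import Vale.Agent.P012.Count

/-!
Numerical estimates for the random construction.
-/

namespace Vale.Agent.P012

open Finset

/-- The sixteenth root. -/
noncomputable def th (q : ℕ) : ℝ := (q : ℝ) ^ ((1 : ℝ) / 16)

theorem th_nonneg (q : ℕ) : 0 ≤ th q := Real.rpow_nonneg (Nat.cast_nonneg _) _

theorem th_pow (q : ℕ) : th q ^ 16 = q := by
  unfold th
  rw [← Real.rpow_natCast, ← Real.rpow_mul (Nat.cast_nonneg _)]
  norm_num

theorem le_th {a q : ℕ} (h : a ^ 16 ≤ q) : (a : ℝ) ≤ th q := by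
  have h' : (a : ℝ) ^ 16 ≤ th q ^ 16 := by rw [th_pow]; exact_mod_cast h
  exact (pow_le_pow_iff_left₀ (Nat.cast_nonneg _) (th_nonneg q) (by norm_num)).1 h'

theorem exists_Z : ∃ Z : ℝ, 0 < Z ∧ ∀ s : Finset ℕ, ∑ q ∈ s, 1 / th q ^ 17 ≤ Z := by
  have hs : Summable (fun n : ℕ => 1 / (n : ℝ) ^ ((17 : ℝ) / 16)) :=
    Real.summable_one_div_nat_rpow.2 (by norm_num)
  have e : ∀ q : ℕ, 1 / th q ^ 17 = 1 / (q : ℝ) ^ ((17 : ℝ) / 16) := by
    intro q
    unfold th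
    rw [← Real.rpow_natCast, ← Real.rpow_mul (Nat.cast_nonneg _)]
    norm_num
  refine ⟨(∑' n : ℕ, 1 / (n : ℝ) ^ ((17 : ℝ) / 16)) + 1, ?_, ?_⟩
  · have : 0 ≤ ∑' n : ℕ, 1 / (n : ℝ) ^ ((17 : ℝ) / 16) := tsum_nonneg (fun n => by positivity)
    linarith
  · intro s
    simp_rw [e]
    have := hs.sum_le_tsum s (fun n _ => by positivity)
    linarith

theorem pool {w : ℕ} (hw : 10000 ≤ w) :
    w ^ 320 ≤ w ^ 2 * ((Nat.primesLE (w ^ 320)).filter (fun r => w ^ 32 < r)).card := by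
  set y := w ^ 320 with hy
  have hwR : (10000 : ℝ) ≤ w := by exact_mod_cast hw
  have hw1 : 1 ≤ w := by omega
  have hcard : (Nat.primesLE y).card ≤
      ((Nat.primesLE y).filter (fun r => w ^ 32 < r)).card + (w ^ 32 + 1) := by
    rw [← Finset.card_range (w ^ 32 + 1)]
    refine le_trans (Finset.card_le_card ?_) (Finset.card_union_le _ _)
    intro r hr
    rw [Finset.mem_union, Finset.mem_filter, Finset.mem_range]
    by_cases h : w ^ 32 < r
    · exact Or.inl ⟨hr, h⟩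
    · right; omega
  have hpi : (Nat.primesLE y).card = Nat.primeCounting y := Nat.primesLE_card_eq_primeCounting y
  have hge := Chebyshev.pi_ge y
  have hyR : (y : ℝ) = (w : ℝ) ^ 320 := by rw [hy]; push_cast; ring
  have hlogw : Real.log w ≤ w := by
    have := Real.log_le_sub_one_of_pos (show (0 : ℝ) < w by linarith); linarith
  have hlogw0 : 0 < Real.log w := Real.log_pos (by linarith)
  have hlogy : Real.log y = 320 * Real.log w := by rw [hyR, Real.log_pow]; norm_num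
  have hy35 : (w : ℝ) ^ 35 ≤ y := by
    rw [hyR]; exact pow_le_pow_right₀ (by linarith) (by norm_num)
  have hy2 : (w : ℝ) ^ 2 ≤ y := by
    rw [hyR]; exact pow_le_pow_right₀ (by linarith) (by norm_num)
  have hy1 : (1 : ℝ) ≤ y := by nlinarith
  have hlog2 : (0.69 : ℝ) < Real.log 2 := by have := Real.log_two_gt_d9; linarith
  have hlog2' : Real.log 2 < 1 := by have := Real.log_two_lt_d9; linarith
  have hlogy1 : Real.log (y + 1) ≤ 1 + 320 * w := by
    calc Real.log (y + 1) ≤ Real.log (2 * y) := Real.log_le_log (by linarith) (by linarith)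
      _ = Real.log 2 + Real.log y := Real.log_mul (by norm_num) (by linarith)
      _ ≤ 1 + 320 * w := by rw [hlogy]; linarith
  have hnum : (y : ℝ) / 2 ≤ y * Real.log 2 - Real.log (y + 1) := by nlinarith
  have hpi2 : (y : ℝ) ≤ 640 * w * (Nat.primeCounting y : ℝ) := by
    rw [div_le_iff₀ (by rw [hlogy]; linarith), hlogy] at hge
    have : (Nat.primeCounting y : ℝ) * (320 * Real.log w) ≤ Nat.primeCounting y * (320 * w) := by
      gcongr
    linarith
  set n := ((Nat.primesLE y).filter (fun r => w ^ 32 < r)).card with hn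
  have hcardR : (Nat.primeCounting y : ℝ) ≤ n + ((w : ℝ) ^ 32 + 1) := by
    rw [← hpi]; exact_mod_cast hcard
  have h1 : (y : ℝ) ≤ 640 * w * (n + ((w : ℝ) ^ 32 + 1)) := by
    refine hpi2.trans ?_; gcongr
  have h32 : (1 : ℝ) ≤ (w : ℝ) ^ 32 := one_le_pow₀ (by linarith)
  have h2 : 640 * (w : ℝ) * ((w : ℝ) ^ 32 + 1) ≤ y / 2 := by
    have : (w : ℝ) ^ 35 = w * w * w * (w : ℝ) ^ 32 := by ring
    have h3 : 2560 * (w * (w : ℝ) ^ 32) ≤ (w * w) * (w * (w : ℝ) ^ 32) := by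
      gcongr; nlinarith
    nlinarith
  have h4 : (y : ℝ) ≤ 1280 * w * n := by linarith
  have h5 : (y : ℝ) ≤ (w : ℝ) ^ 2 * n := by
    refine h4.trans ?_
    have : 1280 * (w : ℝ) ≤ (w : ℝ) ^ 2 := by nlinarith
    gcongr
  exact_mod_cast h5

theorem expect_coll' {w q t : ℕ} (hw : 10000 ≤ w) (ht : t = 12 * (67 * w ^ 16)) (P : Finset ℕ)
    (hP : ∀ r ∈ P, r.Prime ∧ r ≤ w ^ 320) (hn : w ^ 320 ≤ w ^ 2 * P.card)
    (hq1 : w ^ 16 < q) (hq2 : q ≤ 2 ^ (67 * w ^ 16)) :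
    ∑ p ∈ (Fintype.piFinset (fun _ : Fin t => P)).filter (fun p => ∀ j, Nat.Coprime (p j) q),
      (coll (fun S : Finset (Fin t) => ∏ j ∈ S, p j) q : ℝ)
      ≤ 3 * (P.card : ℝ) ^ t * 4 ^ t / th q ^ 14 := by
  set x := 67 * w ^ 16 with hx
  set y := w ^ 320 with hy
  set s := Nat.clog y q with hs
  set n := P.card with hnn
  have hw1 : 1 < w := by omega
  have hW1 : 1 ≤ w ^ 16 := Nat.one_le_pow _ _ (by omega)
  have hy1 : 2 ≤ y := by
    have : 1 < y := Nat.one_lt_pow (by norm_num) hw1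
    omega
  have hq : 1 < q := by omega
  have hs1 : 1 ≤ s := Nat.clog_pos (by omega) hq
  have hsx : s ≤ x := by
    calc s ≤ Nat.clog 2 q := Nat.clog_anti_left (by norm_num) hy1
      _ ≤ x := Nat.clog_le_of_le_pow hq2
  have hlo : y ^ (s - 1) < q := Nat.pow_pred_clog_lt_self (by omega) hq
  have hhi : q ≤ y ^ s := Nat.le_pow_clog (by omega) q
  have hst : s ≤ t := by omega
  have hθw : (w : ℝ) ≤ th q := le_th hq1.le
  have hwR : (10000 : ℝ) ≤ w := by exact_mod_cast hw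
  have hθ1 : 1 ≤ th q := by linarith
  have hθ0 : 0 < th q := by linarith
  have hqθ : (q : ℝ) = th q ^ 16 := (th_pow q).symm
  have hqR : (0 : ℝ) < q := by exact_mod_cast (by omega : 0 < q)
  refine (expect_coll (s := s) P hP).trans ?_
  have hA : (2 : ℝ) ^ s * (7 / 2 : ℝ) ^ t ≤ 4 ^ t / th q ^ 14 := by
    have e1 : (7 / 2 : ℝ) ^ t = 4 ^ t * ((7 / 8 : ℝ) ^ 12) ^ x := by
      rw [← pow_mul, ← ht, ← mul_pow]; norm_num
    have e2 : ((7 / 8 : ℝ) ^ 12) ^ x ≤ (1 / 4 : ℝ) ^ x := by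
      apply pow_le_pow_left₀ (by positivity); norm_num
    have e3 : (2 : ℝ) ^ s ≤ 2 ^ x := pow_le_pow_right₀ (by norm_num) hsx
    have e4 : th q ^ 14 ≤ (2 : ℝ) ^ x := by
      calc th q ^ 14 ≤ th q ^ 16 := pow_le_pow_right₀ hθ1 (by norm_num)
        _ = q := th_pow q
        _ ≤ 2 ^ x := by exact_mod_cast hq2
    rw [le_div_iff₀ (by positivity), e1]
    calc (2 : ℝ) ^ s * (4 ^ t * ((7 / 8 : ℝ) ^ 12) ^ x) * th q ^ 14
        ≤ 2 ^ x * (4 ^ t * (1 / 4 : ℝ) ^ x) * 2 ^ x := by gcongr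
      _ = 4 ^ t * (2 * (1 / 4) * 2 : ℝ) ^ x := by rw [mul_pow, mul_pow]; ring
      _ = 4 ^ t := by norm_num
  have hB1 : ((s * w ^ 2) ^ s : ℝ) ≤ th q ^ 2 := by
    rcases Nat.eq_or_lt_of_le hs1 with h1 | h2
    · rw [← h1]; simp only [Nat.cast_one, one_mul, pow_one]
      gcongr
    · have h3 : s * w ^ 2 ≤ w ^ 20 := by
        calc s * w ^ 2 ≤ 67 * w ^ 16 * w ^ 2 := Nat.mul_le_mul_right _ hsx
          _ ≤ w ^ 2 * w ^ 16 * w ^ 2 := by
            gcongr; nlinarith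
          _ = w ^ 20 := by ring
      have h4 : (w ^ (10 * s)) ^ 16 ≤ q := by
        calc (w ^ (10 * s)) ^ 16 = w ^ (160 * s) := by rw [← pow_mul]; congr 1; ring
          _ ≤ w ^ (320 * (s - 1)) := Nat.pow_le_pow_right (by omega) (by omega)
          _ = y ^ (s - 1) := by rw [hy, ← pow_mul]
          _ ≤ q := hlo.le
      have h5 := le_th h4
      have h6 : ((s * w ^ 2 : ℕ) : ℝ) ^ s ≤ ((w ^ 20 : ℕ) : ℝ) ^ s := by
        gcongr
      calc ((s * w ^ 2) ^ s : ℝ) = ((s * w ^ 2 : ℕ) : ℝ) ^ s := by push_cast; ring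
        _ ≤ ((w ^ 20 : ℕ) : ℝ) ^ s := h6
        _ = ((w ^ (10 * s) : ℕ) : ℝ) ^ 2 := by
            push_cast; rw [← pow_mul, ← pow_mul]; congr 1; ring
        _ ≤ th q ^ 2 := by gcongr
  have hB : ((s ^ s * (n ^ (t - s) * (y ^ s / q + 1)) : ℕ) : ℝ) ≤ 2 * (n : ℝ) ^ t / th q ^ 14 := by
    have h1 : ((y ^ s / q + 1 : ℕ) : ℝ) ≤ 2 * (y : ℝ) ^ s / q := by
      have h2 : ((y ^ s / q : ℕ) : ℝ) ≤ ((y ^ s : ℕ) : ℝ) / q := Nat.cast_div_le
      have h3 : (1 : ℝ) ≤ (y : ℝ) ^ s / q := by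
        rw [le_div_iff₀ hqR, one_mul]; exact_mod_cast hhi
      push_cast at h2 ⊢
      rw [mul_div_assoc]; linarith
    have h4 : (y : ℝ) ^ s ≤ ((w : ℝ) ^ 2 * n) ^ s := by
      apply pow_le_pow_left₀ (by positivity); exact_mod_cast hn
    have h5 : (n : ℝ) ^ t = (n : ℝ) ^ (t - s) * (n : ℝ) ^ s := by
      rw [← pow_add]; congr 1; omega
    rw [Nat.cast_mul, Nat.cast_mul]
    calc ((s ^ s : ℕ) : ℝ) * (((n ^ (t - s) : ℕ) : ℝ) * ((y ^ s / q + 1 : ℕ) : ℝ))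
        ≤ ((s ^ s : ℕ) : ℝ) * (((n ^ (t - s) : ℕ) : ℝ) * (2 * ((w : ℝ) ^ 2 * n) ^ s / q)) := by
          gcongr
          refine h1.trans ?_
          gcongr
      _ = 2 * (n : ℝ) ^ t * ((s * w ^ 2) ^ s : ℝ) / q := by
          rw [h5]; push_cast; rw [mul_pow, mul_pow]; ring
      _ ≤ 2 * (n : ℝ) ^ t * th q ^ 2 / q := by gcongr
      _ = 2 * (n : ℝ) ^ t / th q ^ 14 := by
          rw [hqθ]; field_simp
  calc (n : ℝ) ^ t * (2 ^ s * (7 / 2 : ℝ) ^ t)
        + 4 ^ t * ((s ^ s * (n ^ (t - s) * (y ^ s / q + 1)) : ℕ) : ℝ)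
      ≤ (n : ℝ) ^ t * (4 ^ t / th q ^ 14) + 4 ^ t * (2 * (n : ℝ) ^ t / th q ^ 14) := by gcongr
    _ = _ := by ring

theorem card_bad {w q t : ℕ} (hw : 10000 ≤ w) (ht : t = 12 * (67 * w ^ 16)) (P : Finset ℕ)
    (hP : ∀ r ∈ P, r.Prime ∧ r ≤ w ^ 320) (hn : w ^ 320 ≤ w ^ 2 * P.card)
    (hq1 : w ^ 16 < q) (hq2 : q ≤ 2 ^ (67 * w ^ 16)) :
    (((Fintype.piFinset (fun _ : Fin t => P)).filter (fun p => (∀ j, Nat.Coprime (p j) q) ∧
      (4 : ℝ) ^ t < (coll (fun S : Finset (Fin t) => ∏ j ∈ S, p j) q : ℝ) * th q ^ 12)).card : ℝ)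
      ≤ 3 * (P.card : ℝ) ^ t / th q ^ 2 := by
  classical
  have h := expect_coll' hw ht P hP hn hq1 hq2
  have hθw : (w : ℝ) ≤ th q := le_th hq1.le
  have hwR : (10000 : ℝ) ≤ w := by exact_mod_cast hw
  have hθ0 : 0 < th q := by linarith
  set Ω := Fintype.piFinset (fun _ : Fin t => P) with hΩ
  set B := Ω.filter (fun p => (∀ j, Nat.Coprime (p j) q) ∧
      (4 : ℝ) ^ t < (coll (fun S : Finset (Fin t) => ∏ j ∈ S, p j) q : ℝ) * th q ^ 12) with hB
  have h1 : (B.card : ℝ) * (4 ^ t / th q ^ 12) ≤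
      ∑ p ∈ Ω.filter (fun p => ∀ j, Nat.Coprime (p j) q),
        (coll (fun S : Finset (Fin t) => ∏ j ∈ S, p j) q : ℝ) := by
    calc (B.card : ℝ) * (4 ^ t / th q ^ 12) = ∑ _p ∈ B, (4 ^ t / th q ^ 12 : ℝ) := by
          rw [Finset.sum_const, nsmul_eq_mul]
      _ ≤ ∑ p ∈ B, (coll (fun S : Finset (Fin t) => ∏ j ∈ S, p j) q : ℝ) := by
          apply Finset.sum_le_sum
          intro p hp
          rw [div_le_iff₀ (by positivity)]
          exact (Finset.mem_filter.1 hp).2.2.le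
      _ ≤ _ := by
          apply Finset.sum_le_sum_of_subset_of_nonneg
          · intro p hp
            exact Finset.mem_filter.2 ⟨(Finset.mem_filter.1 hp).1, (Finset.mem_filter.1 hp).2.1⟩
          · intro p _ _; positivity
  have h2 := h1.trans h
  have h3 : 3 * (P.card : ℝ) ^ t * 4 ^ t / th q ^ 14
      = 3 * (P.card : ℝ) ^ t / th q ^ 2 * (4 ^ t / th q ^ 12) := by
    field_simp
  rw [h3] at h2
  exact le_of_mul_le_mul_right h2 (by positivity)

theorem exists_good {w t N : ℕ} (hw : 10000 ≤ w) (ht : t = 12 * (67 * w ^ 16)) (P : Finset ℕ)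
    (hP : ∀ r ∈ P, r.Prime ∧ r ≤ w ^ 320) (hn : w ^ 320 ≤ w ^ 2 * P.card)
    {Z : ℝ} (hZ : ∀ s : Finset ℕ, ∑ q ∈ s, 1 / th q ^ 17 ≤ Z) :
    ∃ p : Fin t → ℕ, (∀ j, p j ∈ P) ∧
      ∑ q ∈ (Ioc (w ^ 16) (2 ^ (67 * w ^ 16))).filter (fun q => (∀ j, Nat.Coprime (p j) q) ∧
        (4 : ℝ) ^ t < (coll (fun S : Finset (Fin t) => ∏ j ∈ S, p j) q : ℝ) * th q ^ 12),
        ((N / q + 1 : ℕ) : ℝ) ≤ 3 * Z * ((N : ℝ) / w + 2 ^ (63 * w ^ 16)) := by
  classical
  set Ω := Fintype.piFinset (fun _ : Fin t => P) with hΩ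
  have hwR : (10000 : ℝ) ≤ w := by exact_mod_cast hw
  have hPne : P.Nonempty := by
    rw [← Finset.card_pos]
    rcases Nat.eq_zero_or_pos P.card with h | h
    · rw [h, mul_zero] at hn
      have : 0 < w ^ 320 := by positivity
      omega
    · exact h
  have hΩne : Ω.Nonempty := Fintype.piFinset_nonempty.2 (fun _ => hPne)
  have hΩc : (Ω.card : ℝ) = (P.card : ℝ) ^ t := by
    rw [hΩ, Fintype.card_piFinset]; simp
  set I := Ioc (w ^ 16) (2 ^ (67 * w ^ 16)) with hI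
  set K : ℝ := (N : ℝ) / w + 2 ^ (63 * w ^ 16) with hK
  have hK0 : 0 ≤ K := by positivity
  have main : ∑ p ∈ Ω, ∑ q ∈ I.filter (fun q => (∀ j, Nat.Coprime (p j) q) ∧
        (4 : ℝ) ^ t < (coll (fun S : Finset (Fin t) => ∏ j ∈ S, p j) q : ℝ) * th q ^ 12),
        ((N / q + 1 : ℕ) : ℝ) ≤ ∑ _p ∈ Ω, 3 * Z * K := by
    simp_rw [Finset.sum_filter]
    rw [Finset.sum_comm, Finset.sum_const, nsmul_eq_mul, hΩc]
    calc _ ≤ ∑ q ∈ I, (P.card : ℝ) ^ t * (3 * K) * (1 / th q ^ 17) := by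
          apply Finset.sum_le_sum
          intro q hq
          obtain ⟨hq1, hq2⟩ := Finset.mem_Ioc.1 hq
          rw [← Finset.sum_filter, Finset.sum_const, nsmul_eq_mul]
          have hb := card_bad hw ht P hP hn hq1 hq2
          have hθw : (w : ℝ) ≤ th q := le_th hq1.le
          have hθ0 : 0 < th q := by linarith
          have h15 : th q ^ 15 ≤ (2 : ℝ) ^ (63 * w ^ 16) := by
            have : (th q ^ 15) ^ 16 ≤ ((2 : ℝ) ^ (63 * w ^ 16)) ^ 16 := by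
              calc (th q ^ 15) ^ 16 = (th q ^ 16) ^ 15 := by ring
                _ = (q : ℝ) ^ 15 := by rw [th_pow]
                _ ≤ ((2 : ℝ) ^ (67 * w ^ 16)) ^ 15 := by
                    gcongr; exact_mod_cast hq2
                _ ≤ _ := by
                    rw [← pow_mul, ← pow_mul]
                    exact pow_le_pow_right₀ (by norm_num) (by omega)
            exact (pow_le_pow_iff_left₀ (by positivity) (by positivity) (by norm_num)).1 this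
          have hNq : ((N / q + 1 : ℕ) : ℝ) ≤ K / th q ^ 15 := by
            have h2 : ((N / q : ℕ) : ℝ) ≤ (N : ℝ) / q := Nat.cast_div_le
            rw [← th_pow q] at h2
            have h3 : (N : ℝ) / th q ^ 16 = (N : ℝ) / th q / th q ^ 15 := by field_simp
            have h4 : (N : ℝ) / th q ≤ (N : ℝ) / w := by gcongr
            have h5 : (1 : ℝ) ≤ 2 ^ (63 * w ^ 16) / th q ^ 15 := by
              rw [le_div_iff₀ (by positivity), one_mul]; exact h15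
            have h6 : (N : ℝ) / th q / th q ^ 15 ≤ (N : ℝ) / w / th q ^ 15 := by gcongr
            rw [hK, add_div]
            push_cast
            linarith
          calc _ ≤ (3 * (P.card : ℝ) ^ t / th q ^ 2) * (K / th q ^ 15) := by
                gcongr
            _ = _ := by field_simp
      _ = (P.card : ℝ) ^ t * (3 * K) * ∑ q ∈ I, 1 / th q ^ 17 := by rw [Finset.mul_sum]
      _ ≤ (P.card : ℝ) ^ t * (3 * K) * Z := by gcongr; exact hZ I
      _ = _ := by ring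
  obtain ⟨p, hp, hle⟩ := Finset.exists_le_of_sum_le hΩne main
  exact ⟨p, Fintype.mem_piFinset.1 hp, hle⟩

end Vale.Agent.P012
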