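import Vale.Agent.P012.Basic
import Vale.Agent.P012.Numeric

/-!
The key lemma: a common denominator `M` of size `exp (O (k log k))` such that `c / M` is a sum of
24 unit fractions for every `c` in `[2 ^ k, 2 ^ (k + 2))`.
-/

namespace Vale.Agent.P012

open Finset

theorem good_of {t W X D ρ g : ℕ} (p : Fin t → ℕ) (hp : ∀ j, (p j).Prime)
    (hD : D = primorial W) (hcop : Nat.Coprime ρ D) (i : ℕ) (hg : g = D * i + ρ) (hg0 : 0 < g)
    (hgX : g ≤ X) (h1 : ∀ j, ¬ p j ∣ g)
    (h2 : ∀ q ∈ (Ioc W X).filter (fun q => (∀ j, Nat.Coprime (p j) q) ∧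
        (4 : ℝ) ^ t < (coll (fun S : Finset (Fin t) => ∏ j ∈ S, p j) q : ℝ) * th q ^ 12),
        ¬ q ∣ g) :
    UF 12 ((g : ℚ) / (((∏ j, p j) ^ 2 : ℕ) : ℚ)) := by
  classical
  have hpos : 0 < ∏ j, p j := Finset.prod_pos (fun j _ => (hp j).pos)
  obtain ⟨f, hf⟩ := exists_dvd_sum (fun S : Finset (Fin t) => ∏ j ∈ S, p j) hg0 (by
    intro q hq hq1
    have hqW : W < q := by
      by_contra hle
      push Not at hle
      have hpr := Nat.minFac_prime (show q ≠ 1 by omega)
      have hd1 : q.minFac ∣ D := by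
        rw [hD, hpr.dvd_primorial_iff]
        exact (Nat.minFac_le (by omega)).trans hle
      have hd2 : q.minFac ∣ D * i + ρ := hg ▸ (Nat.minFac_dvd q).trans hq
      have hd3 : q.minFac ∣ ρ := (Nat.dvd_add_right (hd1.mul_right i)).1 hd2
      have := Nat.dvd_gcd hd3 hd1
      rw [hcop] at this
      exact hpr.one_lt.ne' (Nat.dvd_one.1 this)
    have hqX : q ≤ X := (Nat.le_of_dvd hg0 hq).trans hgX
    have hc : ∀ j, Nat.Coprime (p j) q := fun j =>
      (Nat.Prime.coprime_iff_not_dvd (hp j)).2 (fun h => h1 j (h.trans hq))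
    have hle : (coll (fun S : Finset (Fin t) => ∏ j ∈ S, p j) q : ℝ) * th q ^ 12 ≤ 4 ^ t := by
      by_contra hlt
      push Not at hlt
      exact h2 q (Finset.mem_filter.2 ⟨Finset.mem_Ioc.2 ⟨hqW, hqX⟩, hc, hlt⟩) hq
    have hθ := th_nonneg q
    calc (coll (fun S : Finset (Fin t) => ∏ j ∈ S, p j) q : ℝ) ^ 4 * (q : ℝ) ^ 3
        = ((coll (fun S : Finset (Fin t) => ∏ j ∈ S, p j) q : ℝ) * th q ^ 12) ^ 4 := by
          rw [← th_pow q]; ring
      _ ≤ ((4 : ℝ) ^ t) ^ 4 := by gcongr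
      _ = _ := by
          rw [Fintype.card_finset, Fintype.card_fin]
          push_cast
          rw [← pow_mul, ← pow_mul, show (4 : ℝ) = 2 ^ 2 by norm_num, ← pow_mul]
          congr 1; ring)
  have h := UF.of_dvd_sum (univ : Finset (Fin 12))
    (fun l => (∏ j ∈ (f l).1, p j) * (∏ j ∈ (f l).2, p j)) (M := (∏ j, p j) ^ 2)
    (by positivity) Finset.univ_nonempty (by
      intro l _
      rw [sq]
      exact Nat.mul_dvd_mul (Finset.prod_dvd_prod_of_subset _ _ _ (Finset.subset_univ _))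
        (Finset.prod_dvd_prod_of_subset _ _ _ (Finset.subset_univ _))) hf
  simpa using h

open Classical in
theorem card_not_good {t W X D ρ N y0 : ℕ} (p : Fin t → ℕ) (hp : ∀ j, (p j).Prime)
    (hy0 : 0 < y0) (hp0 : ∀ j, y0 < p j)
    (hD : D = primorial W) (hcop : Nat.Coprime ρ D) (hρ0 : 0 < ρ) (hρ : ρ ≤ D) (hX : D * N ≤ X) :
    ((range N).filter (fun i =>
      ¬ UF 12 (((D * i + ρ : ℕ) : ℚ) / (((∏ j, p j) ^ 2 : ℕ) : ℚ)))).card
    ≤ t * (N / y0 + 1) +
      ∑ q ∈ (Ioc W X).filter (fun q => (∀ j, Nat.Coprime (p j) q) ∧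
        (4 : ℝ) ^ t < (coll (fun S : Finset (Fin t) => ∏ j ∈ S, p j) q : ℝ) * th q ^ 12),
        (N / q + 1) := by
  set Q := (Ioc W X).filter (fun q => (∀ j, Nat.Coprime (p j) q) ∧
        (4 : ℝ) ^ t < (coll (fun S : Finset (Fin t) => ∏ j ∈ S, p j) q : ℝ) * th q ^ 12) with hQ
  calc _ ≤ ((univ : Finset (Fin t)).biUnion
            (fun j => (range N).filter (fun i => p j ∣ D * i + ρ)) ∪
          Q.biUnion (fun q => (range N).filter (fun i => q ∣ D * i + ρ))).card := by
        apply Finset.card_le_card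
        intro i hi
        obtain ⟨hiN, hbad⟩ := Finset.mem_filter.1 hi
        by_contra hnot
        rw [Finset.mem_union, not_or] at hnot
        apply hbad
        have hiN' := Finset.mem_range.1 hiN
        refine good_of (W := W) (X := X) p hp hD hcop i rfl (by omega) ?_ ?_ ?_
        · calc D * i + ρ ≤ D * i + D := by omega
            _ = D * (i + 1) := by ring
            _ ≤ D * N := Nat.mul_le_mul_left _ hiN'
            _ ≤ X := hX
        · intro j hj
          exact hnot.1 (Finset.mem_biUnion.2 ⟨j, Finset.mem_univ _,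
            Finset.mem_filter.2 ⟨hiN, hj⟩⟩)
        · intro q hq hj
          exact hnot.2 (Finset.mem_biUnion.2 ⟨q, hq, Finset.mem_filter.2 ⟨hiN, hj⟩⟩)
    _ ≤ _ := Finset.card_union_le _ _
    _ ≤ _ := by
        apply Nat.add_le_add
        · refine Finset.card_biUnion_le.trans ?_
          calc _ ≤ ∑ _j : Fin t, (N / y0 + 1) := by
                apply Finset.sum_le_sum
                intro j _
                refine (count_multiples hcop).trans ?_
                have : N / p j ≤ N / y0 := Nat.div_le_div_left (hp0 j).le hy0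
                omega
            _ = _ := by simp
        · refine Finset.card_biUnion_le.trans ?_
          exact Finset.sum_le_sum (fun q _ => count_multiples hcop)

theorem key : ∃ w0 : ℕ, ∀ w : ℕ, w0 ≤ w → ∃ M : ℕ, 2 ^ (64 * w ^ 16) ≤ M ∧
    M ≤ w ^ (514560 * w ^ 16) ∧
    ∀ c : ℕ, 2 ^ (64 * w ^ 16) ≤ c → c < 4 * 2 ^ (64 * w ^ 16) → UF 24 ((c : ℚ) / M) := by
  classical
  obtain ⟨Z, hZ0, hZ⟩ := exists_Z
  refine ⟨max 10000 ⌈192 * Z⌉₊, ?_⟩
  intro w hw
  have hw1 : 10000 ≤ w := le_of_max_le_left hw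
  have hwZ : 192 * Z ≤ w := (Nat.le_ceil _).trans (by exact_mod_cast le_of_max_le_right hw)
  obtain ⟨t, ht⟩ : ∃ t, t = 12 * (67 * w ^ 16) := ⟨_, rfl⟩
  set P := (Nat.primesLE (w ^ 320)).filter (fun r => w ^ 32 < r) with hPdef
  have hP : ∀ r ∈ P, r.Prime ∧ r ≤ w ^ 320 := by
    intro r hr
    have := Nat.mem_primesLE.1 (Finset.mem_filter.1 hr).1
    exact ⟨this.2, this.1⟩
  obtain ⟨p, hpP, hsum⟩ := exists_good (N := 4 * 2 ^ (64 * w ^ 16)) hw1 ht P hP (pool hw1) hZ
  have hp : ∀ j, (p j).Prime := fun j => (hP _ (hpP j)).1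
  have hp0 : ∀ j, w ^ 32 < p j := fun j => (Finset.mem_filter.1 (hpP j)).2
  set W := w ^ 16 with hW
  set C := 2 ^ (64 * W) with hC
  set D := primorial W with hD
  have hwW : w ^ 2 ≤ W := Nat.pow_le_pow_right (by omega) (by norm_num)
  have hW1 : 100000000 ≤ W := by nlinarith
  have hwW' : w ≤ W := by nlinarith
  have hD2 : 2 ≤ D := by
    have := le_primorial_self (n := W); omega
  have hDN : D * (4 * C) ≤ 2 ^ (67 * W) := by
    calc D * (4 * C) ≤ 4 ^ W * (4 * C) := Nat.mul_le_mul_right _ (primorial_le_four_pow W)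
      _ = 2 ^ (66 * W + 2) := by
          rw [hC, show (4 : ℕ) = 2 ^ 2 by norm_num, ← pow_mul, ← pow_add, ← pow_add]
          congr 1; ring
      _ ≤ 2 ^ (67 * W) := Nat.pow_le_pow_right (by norm_num) (by omega)
  have hC0 : 0 < C := by positivity
  have hW2 : W < 2 ^ W := Nat.lt_two_pow_self
  have hCsplit : C = 2 ^ (63 * W) * 2 ^ W := by rw [hC, ← pow_add]; congr 1; ring
  have hbound : ∀ ρ : ℕ, Nat.Coprime ρ D → 0 < ρ → ρ ≤ D →
      4 * ((range (4 * C)).filter (fun i =>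
        ¬ UF 12 (((D * i + ρ : ℕ) : ℚ) / (((∏ j, p j) ^ 2 : ℕ) : ℚ)))).card ≤ C := by
    intro ρ hcop hρ0 hρ
    have h := card_not_good (W := W) (X := 2 ^ (67 * W)) (N := 4 * C) (y0 := w ^ 32) p hp
      (by positivity) hp0 hD hcop hρ0 hρ hDN
    have hR : (((range (4 * C)).filter (fun i =>
        ¬ UF 12 (((D * i + ρ : ℕ) : ℚ) / (((∏ j, p j) ^ 2 : ℕ) : ℚ)))).card : ℝ)
        ≤ ((t * (4 * C / w ^ 32 + 1) : ℕ) : ℝ)
          + 3 * Z * (((4 * C : ℕ) : ℝ) / w + 2 ^ (63 * W)) := by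
      refine le_trans (Nat.cast_le.2 h) ?_
      rw [Nat.cast_add, Nat.cast_sum]
      exact add_le_add le_rfl hsum
    have hwR : (10000 : ℝ) ≤ w := by exact_mod_cast hw1
    have hCR : (0 : ℝ) < C := by exact_mod_cast hC0
    have e1 : 16 * (t * (4 * C / w ^ 32)) ≤ C := by
      have h1 : w ^ 32 * (4 * C / w ^ 32) ≤ 4 * C := Nat.mul_div_le _ _
      have h2 : w ^ 32 = W * W := by rw [hW]; ring
      have h3 : 64 * t ≤ w ^ 32 := by rw [h2, ht]; nlinarith
      have h4 : 64 * t * (4 * C / w ^ 32) ≤ w ^ 32 * (4 * C / w ^ 32) :=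
        Nat.mul_le_mul_right _ h3
      nlinarith
    have e2 : 16 * t ≤ C := by
      have h1 : 2 ^ 14 ≤ 2 ^ (63 * W) := Nat.pow_le_pow_right (by norm_num) (by omega)
      rw [hCsplit, ht]
      calc 16 * (12 * (67 * W)) ≤ 2 ^ 14 * W := by omega
        _ ≤ 2 ^ (63 * W) * 2 ^ W := Nat.mul_le_mul h1 hW2.le
    have e12 : ((t * (4 * C / w ^ 32 + 1) : ℕ) : ℝ) ≤ C / 8 := by
      have : 8 * (t * (4 * C / w ^ 32 + 1)) ≤ C := by
        rw [mul_add, mul_one]; omega
      have : (8 : ℝ) * ((t * (4 * C / w ^ 32 + 1) : ℕ) : ℝ) ≤ C := by exact_mod_cast this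
      linarith
    have e3 : 3 * Z * (((4 * C : ℕ) : ℝ) / w) ≤ C / 16 := by
      push_cast
      rw [← mul_div_assoc, div_le_div_iff₀ (by linarith) (by norm_num)]
      nlinarith
    have e4 : 3 * Z * (2 : ℝ) ^ (63 * W) ≤ C / 16 := by
      have h1 : (w : ℝ) ≤ 2 ^ W := by exact_mod_cast (hwW'.trans hW2.le)
      have h2 : (C : ℝ) = 2 ^ (63 * W) * 2 ^ W := by exact_mod_cast hCsplit
      have h3 : (0 : ℝ) < 2 ^ (63 * W) := by positivity
      rw [h2]
      nlinarith
    have : (4 : ℝ) * (((range (4 * C)).filter (fun i =>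
        ¬ UF 12 (((D * i + ρ : ℕ) : ℚ) / (((∏ j, p j) ^ 2 : ℕ) : ℚ)))).card : ℝ) ≤ C := by
      rw [mul_add (3 * Z)] at hR
      linarith
    exact_mod_cast this
  refine ⟨(∏ j, p j) ^ 2, ?_, ?_, ?_⟩
  · have h1 : 2 ^ t ≤ ∏ j, p j := by
      have := Finset.pow_card_le_prod (univ : Finset (Fin t)) p 2 (fun j _ => (hp j).two_le)
      simpa using this
    calc C ≤ 2 ^ t := Nat.pow_le_pow_right (by norm_num) (by omega)
      _ ≤ ∏ j, p j := h1
      _ ≤ _ := Nat.le_self_pow (by norm_num) _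
  · have h1 : ∏ j, p j ≤ (w ^ 320) ^ t := by
      have := Finset.prod_le_pow_card (univ : Finset (Fin t)) p (w ^ 320)
        (fun j _ => (hP _ (hpP j)).2)
      simpa using this
    calc (∏ j, p j) ^ 2 ≤ ((w ^ 320) ^ t) ^ 2 := Nat.pow_le_pow_left h1 2
      _ = _ := by rw [← pow_mul, ← pow_mul, ht]; congr 1; ring
  · intro c hc1 hc2
    have b1 := hbound 1 (Nat.coprime_one_left D) one_pos (by omega)
    have b2 := hbound (D - 1) (by
      have : D = (D - 1) + 1 := by omega
      conv_rhs => rw [this]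
      simp) (by omega) (by omega)
    set M := (∏ j, p j) ^ 2 with hM
    set B1 := (range (4 * C)).filter (fun i => ¬ UF 12 (((D * i + 1 : ℕ) : ℚ) / (M : ℚ))) with hB1
    set B2 := (range (4 * C)).filter
      (fun i => ¬ UF 12 (((D * i + (D - 1) : ℕ) : ℚ) / (M : ℚ))) with hB2
    have hex : ∃ i, i < c ∧ i ∉ B1 ∧ c - 1 - i ∉ B2 := by
      by_contra hno
      push Not at hno
      have hsub : range c ⊆ B1 ∪ B2.image (fun i => c - 1 - i) := by
        intro i hi
        have hi' := Finset.mem_range.1 hi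
        rw [Finset.mem_union]
        by_cases h : i ∈ B1
        · exact Or.inl h
        · right
          exact Finset.mem_image.2 ⟨c - 1 - i, hno i hi' h, by omega⟩
      have h1 := Finset.card_le_card hsub
      have h2 := Finset.card_union_le B1 (B2.image (fun i => c - 1 - i))
      have h3 : (B2.image (fun i => c - 1 - i)).card ≤ B2.card := Finset.card_image_le
      rw [Finset.card_range] at h1
      omega
    obtain ⟨i, hi, hi1, hi2⟩ := hex
    have g1 : UF 12 (((D * i + 1 : ℕ) : ℚ) / (M : ℚ)) := by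
      by_contra hbad
      exact hi1 (Finset.mem_filter.2 ⟨Finset.mem_range.2 (by omega), hbad⟩)
    have g2 : UF 12 (((D * (c - 1 - i) + (D - 1) : ℕ) : ℚ) / (M : ℚ)) := by
      by_contra hbad
      exact hi2 (Finset.mem_filter.2 ⟨Finset.mem_range.2 (by omega), hbad⟩)
    have g3 := (g1.add g2).div (L := D) (by omega)
    have e : (((D * i + 1 : ℕ) : ℚ) / (M : ℚ) +
        ((D * (c - 1 - i) + (D - 1) : ℕ) : ℚ) / (M : ℚ)) / (D : ℚ) = (c : ℚ) / M := by
      have h1 : D * i + 1 + (D * (c - 1 - i) + (D - 1)) = D * c := by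
        obtain ⟨k, rfl⟩ : ∃ k, c = i + 1 + k := ⟨c - 1 - i, by omega⟩
        have : i + 1 + k - 1 - i = k := by omega
        rw [this]
        have : D * (i + 1 + k) = D * i + D + D * k := by ring
        omega
      have hDq : (D : ℚ) ≠ 0 := by
        have : 0 < D := by omega
        positivity
      rw [← add_div, ← Nat.cast_add, h1]
      push_cast
      field_simp
    rw [e] at g3
    exact g3

end Vale.Agent.P012
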