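import Vale.Agent.P012.Greedy
import Vale.Agent.P012.Key

/-!
Assembly of the upper bound, and the classical lower bound.
-/

namespace Vale.Agent.P012

open Finset

theorem upper_half : ∃ w0 : ℕ, ∀ w : ℕ, w0 ≤ w → ∀ L : ℕ, w < 2 ^ L → L ≤ w →
    ∀ a b : ℕ, 0 < a → a < b → b ≤ 2 * a → b ≤ 2 ^ w → UF (200000 * L) ((a : ℚ) / b) := by
  obtain ⟨w0, hkey⟩ := key
  refine ⟨max w0 1, ?_⟩
  intro w hw L hwL hLw a b ha hab hba hbw
  have hw1 : 1 ≤ w := le_of_max_le_right hw
  obtain ⟨M, hM1, hM2, hdig⟩ := hkey w (le_of_max_le_left hw)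
  set W := w ^ 16 with hW
  set C := 2 ^ (64 * W) with hC
  have hwW : w ≤ W := Nat.le_self_pow (by norm_num) _
  have hL1 : 1 ≤ L := by
    rcases Nat.eq_zero_or_pos L with rfl | h
    · simp at hwL; omega
    · exact h
  have hC0 : 0 < C := by positivity
  obtain ⟨A, P, h1, h2, _, hcov, h5, h6, h7⟩ := greedy ha hab hba (17 * L + 23)
  have hP0 : 0 < P := lt_of_lt_of_le (by positivity) h5
  have hP : 2 ^ (2 ^ (17 * L + 19)) ≤ P := by
    refine le_trans ?_ (h6 (by omega))
    apply Nat.pow_le_pow_right (by norm_num)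
    have : 17 * L + 23 - 4 = 17 * L + 19 := by omega
    rw [this]; omega
  have hMC : M ≤ C ^ (8040 * L) := by
    calc M ≤ w ^ (514560 * W) := hM2
      _ ≤ (2 ^ L) ^ (514560 * W) := Nat.pow_le_pow_left hwL.le _
      _ = C ^ (8040 * L) := by rw [hC, ← pow_mul, ← pow_mul]; congr 1; ring
  have hAC : A ≤ C ^ 2 := by
    calc A ≤ 2 ^ (17 * L + 23) * a := h2
      _ ≤ 2 ^ (64 * W) * 2 ^ (64 * W) := by
          apply Nat.mul_le_mul (Nat.pow_le_pow_right (by norm_num) (by omega))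
          calc a ≤ 2 ^ w := by omega
            _ ≤ _ := Nat.pow_le_pow_right (by norm_num) (by omega)
      _ = C ^ 2 := by rw [hC]; ring
  have hAM : A * M ≤ C ^ (8040 * L + 1 + 1) := by
    calc A * M ≤ C ^ 2 * C ^ (8040 * L) := Nat.mul_le_mul hAC hMC
      _ = _ := by rw [← pow_add]; congr 1; ring
  have hCP : C ^ (8040 * L + 1 + 1) ≤ P := by
    refine le_trans ?_ hP
    rw [hC, ← pow_mul]
    apply Nat.pow_le_pow_right (by norm_num)
    have e1 : W ≤ 2 ^ (16 * L) := by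
      calc W ≤ (2 ^ L) ^ 16 := Nat.pow_le_pow_left hwL.le _
        _ = _ := by rw [← pow_mul, mul_comm]
    have e2 : 8040 * L + 1 + 1 ≤ 2 ^ 13 * 2 ^ L := by
      have : L < 2 ^ L := Nat.lt_two_pow_self
      omega
    calc 64 * W * (8040 * L + 1 + 1) ≤ 2 ^ 6 * 2 ^ (16 * L) * (2 ^ 13 * 2 ^ L) :=
          Nat.mul_le_mul (Nat.mul_le_mul (by norm_num) e1) e2
      _ = _ := by rw [← pow_add, ← pow_add, ← pow_add]; congr 1; ring
  have hCAM : C ≤ A * M := hM1.trans (Nat.le_mul_of_pos_left _ (by omega))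
  have hd := digits hC0 hP0 hcov hdig (8040 * L + 1) (A * M) hCAM (by omega) (by
    have : P ≤ 4 * C * P := Nat.le_mul_of_pos_left _ (by omega)
    omega)
  have hfin := h7.add (hd.div (L := b) (by omega))
  have e : (a : ℚ) / b - (A : ℚ) / (b * P) + ((A * M : ℕ) : ℚ) / M / P / b = (a : ℚ) / b := by
    have hMq : (M : ℚ) ≠ 0 := by
      have : 0 < M := by omega
      positivity
    have hPq : (P : ℚ) ≠ 0 := by positivity
    have hbq : (b : ℚ) ≠ 0 := by
      have : 0 < b := by omega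
      positivity
    push_cast
    field_simp
    ring
  rw [e] at hfin
  exact hfin.mono (by omega)

theorem upper_nat : ∃ w0 : ℕ, ∀ w : ℕ, w0 ≤ w → ∀ L : ℕ, w < 2 ^ L → L ≤ w →
    ∀ a b : ℕ, 0 < a → a < b → b ≤ 2 ^ w → UF (200000 * L) ((a : ℚ) / b) := by
  obtain ⟨w0, h⟩ := upper_half
  refine ⟨max w0 1, ?_⟩
  intro w hw L hwL hLw a b ha hab hbw
  have hw1 : 1 ≤ w := le_of_max_le_right hw
  have hL1 : 1 ≤ L := by
    rcases Nat.eq_zero_or_pos L with rfl | h
    · simp at hwL; omega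
    · exact h
  set d := b / a with hd
  have hdm : a * d + b % a = b := Nat.div_add_mod _ _
  have hmod : b % a < a := Nat.mod_lt _ ha
  have hd1 : 1 ≤ d := (Nat.le_div_iff_mul_le ha).2 (by omega)
  have haq : (a : ℚ) ≠ 0 := by positivity
  have hdq : (d : ℚ) ≠ 0 := by positivity
  rcases Nat.eq_zero_or_pos (b % a) with h0 | hpos
  · have e : (a : ℚ) / b = 1 / d := by
      have : b = a * d := by omega
      rw [this]; push_cast; field_simp
    rw [e]
    exact (UF.single hd1).mono (by omega)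
  · have had : a ≤ a * d := Nat.le_mul_of_pos_right _ hd1
    have h1 := (h w (le_of_max_le_left hw) L hwL hLw (a * d) b (by omega) (by omega) (by omega)
      hbw).div hd1
    have e : ((a * d : ℕ) : ℚ) / b / d = (a : ℚ) / b := by
      push_cast; field_simp
    rwa [e] at h1

theorem upper : ∃ C : ℝ, 0 < C ∧ ∃ b0 : ℕ, ∀ b : ℕ, b0 ≤ b → ∀ a : ℕ, 1 ≤ a → a < b →
    ∃ s : Finset ℕ, (∀ n ∈ s, 2 ≤ n) ∧ ∑ n ∈ s, (1 : ℚ) / n = (a : ℚ) / b ∧
      (s.card : ℝ) ≤ C * Real.log (Real.log b) := by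
  obtain ⟨w0, h⟩ := upper_nat
  have hev : ∀ᶠ b : ℕ in Filter.atTop, 1 ≤ Real.log (Real.log b) :=
    (Real.tendsto_log_atTop.comp (Real.tendsto_log_atTop.comp
      tendsto_natCast_atTop_atTop)).eventually_ge_atTop 1
  have hev' : ∀ᶠ b : ℕ in Filter.atTop, 1 ≤ Real.log b :=
    (Real.tendsto_log_atTop.comp tendsto_natCast_atTop_atTop).eventually_ge_atTop 1
  obtain ⟨b1, hb1⟩ := Filter.eventually_atTop.1 (hev.and hev')
  refine ⟨1200000, by norm_num, max b1 (2 ^ w0), ?_⟩
  intro b hb a ha hab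
  obtain ⟨hll, hl⟩ := hb1 b (le_of_max_le_left hb)
  have hb0 : b ≠ 0 := by omega
  set w := Nat.log 2 b + 1 with hw
  set L := Nat.log 2 w + 1 with hL
  have hw0 : w0 ≤ w := by
    have : w0 ≤ Nat.log 2 b := Nat.le_log_of_pow_le (by norm_num) (le_of_max_le_right hb)
    omega
  have hbw : b < 2 ^ w := Nat.lt_pow_succ_log_self (by norm_num) b
  have hwL : w < 2 ^ L := Nat.lt_pow_succ_log_self (by norm_num) w
  have hLw : L ≤ w := Nat.log_lt_self 2 (by omega)
  have hU := h w hw0 L hwL hLw a b ha hab hbw.le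
  have hlt : (a : ℚ) / b < 1 := by
    rw [div_lt_one (by positivity)]; exact_mod_cast hab
  obtain ⟨s, hs1, hs2, hs3⟩ := hU.distinct hlt
  refine ⟨s, hs1, hs2, ?_⟩
  have hlog2 : (0.69 : ℝ) < Real.log 2 := by have := Real.log_two_gt_d9; linarith
  have gen : ∀ n : ℕ, n ≠ 0 → (Nat.log 2 n : ℝ) * Real.log 2 ≤ Real.log n := by
    intro n hn
    have h1 : 2 ^ Nat.log 2 n ≤ n := Nat.pow_log_le_self 2 hn
    have h2 : ((2 : ℝ)) ^ Nat.log 2 n ≤ n := by exact_mod_cast h1
    rw [← Real.log_pow]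
    exact Real.log_le_log (by positivity) h2
  have h1 := gen b hb0
  have h2 := gen w (by omega)
  have hwR : (w : ℝ) ≤ 3 * Real.log b := by
    have : (w : ℝ) = Nat.log 2 b + 1 := by rw [hw]; push_cast; ring
    have h3 : (0 : ℝ) ≤ Nat.log 2 b := Nat.cast_nonneg _
    nlinarith
  have hw1 : (0 : ℝ) < w := by
    have : 0 < w := by omega
    exact_mod_cast this
  have hlogw : Real.log w ≤ 2 + Real.log (Real.log b) := by
    calc Real.log w ≤ Real.log (3 * Real.log b) := Real.log_le_log hw1 hwR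
      _ = Real.log 3 + Real.log (Real.log b) := Real.log_mul (by norm_num) (by linarith)
      _ ≤ _ := by
          have := Real.log_le_sub_one_of_pos (show (0 : ℝ) < 3 by norm_num)
          linarith
  have hLR : (L : ℝ) ≤ 6 * Real.log (Real.log b) := by
    have : (L : ℝ) = Nat.log 2 w + 1 := by rw [hL]; push_cast; ring
    have h3 : (0 : ℝ) ≤ Nat.log 2 w := Nat.cast_nonneg _
    nlinarith
  have : (s.card : ℝ) ≤ 200000 * L := by exact_mod_cast hs3
  linarith

theorem denom_bound {ι : Type*} [DecidableEq ι] (f : ι → ℕ) (K : ℕ) (s : Finset ι) :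
    (∀ i ∈ s, 0 < f i) → s.card ≤ K → ∀ D u : ℕ, 0 < D →
      ∑ i ∈ s, (1 : ℚ) / f i = (u : ℚ) / D → ∀ i ∈ s, f i ≤ (K * D) ^ (2 ^ s.card) := by
  induction s using Finset.induction_on_min_value f with
  | empty => intro _ _ _ _ _ _ i hi; simp at hi
  | insert a s has hmin ih =>
    intro hpos hcard D u hD hsum i hi
    rw [Finset.card_insert_of_notMem has] at hcard ⊢
    have ha0 : 0 < f a := hpos a (Finset.mem_insert_self _ _)
    have haq : (0 : ℚ) < f a := by exact_mod_cast ha0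
    have hDq : (0 : ℚ) < D := by exact_mod_cast hD
    have hs0 : 0 ≤ ∑ i ∈ s, (1 : ℚ) / f i := Finset.sum_nonneg (fun i _ => by positivity)
    rw [Finset.sum_insert has] at hsum
    have hu : 0 < u := by
      rcases Nat.eq_zero_or_pos u with rfl | h
      · have : (0 : ℚ) < 1 / f a := by positivity
        simp only [Nat.cast_zero, zero_div] at hsum
        linarith
      · exact h
    have hsle : ∑ i ∈ s, (1 : ℚ) / f i ≤ s.card * (1 / f a) := by
      rw [← nsmul_eq_mul]
      apply Finset.sum_le_card_nsmul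
      intro i hi
      exact one_div_le_one_div_of_le haq (by exact_mod_cast hmin i hi)
    have hfa : f a ≤ K * D := by
      have h1 : (1 : ℚ) / D ≤ K * (1 / f a) := by
        have h2 : (1 : ℚ) / D ≤ (u : ℚ) / D := by
          gcongr; exact_mod_cast hu
        have h3 : ((s.card : ℚ) + 1) ≤ K := by exact_mod_cast hcard
        have h4 : (0 : ℚ) < 1 / f a := by positivity
        nlinarith
      rw [mul_one_div, div_le_div_iff₀ hDq haq, one_mul] at h1
      exact_mod_cast h1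
    have hKD : 1 ≤ K * D := by omega
    rcases Finset.mem_insert.1 hi with rfl | his
    · exact hfa.trans (Nat.le_self_pow (by positivity) _)
    · have hDle : D ≤ u * f a := by
        have h1 : (1 : ℚ) / f a ≤ (u : ℚ) / D := by linarith
        rw [div_le_div_iff₀ haq hDq, one_mul] at h1
        exact_mod_cast h1
      have h := ih (fun i hi => hpos i (Finset.mem_insert_of_mem hi)) (by omega) (D * f a)
        (u * f a - D) (Nat.mul_pos hD ha0) (by
          rw [Nat.cast_sub hDle]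
          push_cast
          have : ∑ i ∈ s, (1 : ℚ) / f i = (u : ℚ) / D - 1 / f a := by linarith
          rw [this]; field_simp) i his
      refine h.trans ?_
      rw [pow_succ' 2, pow_mul]
      apply Nat.pow_le_pow_left
      calc K * (D * f a) = (K * D) * f a := by ring
        _ ≤ (K * D) * (K * D) := Nat.mul_le_mul_left _ hfa
        _ = _ := by ring

theorem lower {b : ℕ} (hb : 3 ≤ b) (s : Finset ℕ) (hs : ∀ n ∈ s, 2 ≤ n)
    (hsum : ∑ n ∈ s, (1 : ℚ) / n = ((b - 1 : ℕ) : ℚ) / b) :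
    (1 / 3 : ℝ) * Real.log (Real.log b) ≤ s.card := by
  classical
  have hbq : (0 : ℚ) < b := by exact_mod_cast (by omega : 0 < b)
  have h := denom_bound (ι := Option ℕ) (fun o => o.getD b) (s.card + 1) (Finset.insertNone s)
    (by
      intro o ho
      cases o with
      | none => simp; omega
      | some n =>
        have := hs n (by simpa using ho)
        simp; omega)
    (by simp) 1 1 one_pos (by
      rw [Finset.sum_insertNone]
      simp only [Option.getD_none, Option.getD_some]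
      rw [hsum, Nat.cast_sub (by omega)]
      push_cast
      field_simp
      ring) none (by simp)
  simp only [Option.getD_none, mul_one, Finset.card_insertNone] at h
  set k := s.card with hk
  have hk1 : 1 ≤ k := by
    rcases Nat.eq_zero_or_pos k with h0 | h0
    · rw [h0] at h; simp at h; omega
    · exact h0
  have h2 : b ≤ 2 ^ (2 ^ (2 * k + 1)) := by
    calc b ≤ (k + 1) ^ (2 ^ (k + 1)) := h
      _ ≤ (2 ^ (2 ^ k)) ^ (2 ^ (k + 1)) := by
          apply Nat.pow_le_pow_left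
          have h1 : k < 2 ^ k := Nat.lt_two_pow_self
          have h2 : 2 ^ k < 2 ^ (2 ^ k) := Nat.lt_two_pow_self
          omega
      _ = _ := by rw [← pow_mul, ← pow_add]; congr 2; ring
  have hbR : (3 : ℝ) ≤ b := by exact_mod_cast hb
  have hlog2' : Real.log 2 < 1 := by have := Real.log_two_lt_d9; linarith
  have hlog2 : 0 < Real.log 2 := Real.log_pos (by norm_num)
  have h3 : Real.log b ≤ (2 : ℝ) ^ (2 * k + 1) := by
    have h4 : (b : ℝ) ≤ (2 : ℝ) ^ (2 ^ (2 * k + 1)) := by exact_mod_cast h2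
    calc Real.log b ≤ Real.log ((2 : ℝ) ^ (2 ^ (2 * k + 1))) := Real.log_le_log (by linarith) h4
      _ = ((2 ^ (2 * k + 1) : ℕ) : ℝ) * Real.log 2 := by rw [Real.log_pow]
      _ ≤ ((2 ^ (2 * k + 1) : ℕ) : ℝ) * 1 := by gcongr
      _ = _ := by push_cast; ring
  have h5 : Real.log (Real.log b) ≤ ((2 * k + 1 : ℕ) : ℝ) * Real.log 2 := by
    rw [← Real.log_pow]
    exact Real.log_le_log (Real.log_pos (by linarith)) h3
  have hkR : (1 : ℝ) ≤ k := by exact_mod_cast hk1
  push_cast at h5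
  nlinarith

theorem main : ∃ c C : ℝ, 0 < c ∧ 0 < C ∧ ∃ b0 : ℕ, ∀ b : ℕ, b0 ≤ b →
    (∀ a : ℕ, 1 ≤ a → a < b →
      ∃ s : Finset ℕ, (∀ n ∈ s, 2 ≤ n) ∧ ∑ n ∈ s, (1 : ℚ) / (n : ℚ) = (a : ℚ) / (b : ℚ) ∧
        (s.card : ℝ) ≤ C * Real.log (Real.log (b : ℝ))) ∧
    (∃ a : ℕ, 1 ≤ a ∧ a < b ∧
      ∀ s : Finset ℕ, (∀ n ∈ s, 2 ≤ n) → ∑ n ∈ s, (1 : ℚ) / (n : ℚ) = (a : ℚ) / (b : ℚ) →
        c * Real.log (Real.log (b : ℝ)) ≤ (s.card : ℝ)) := by
  obtain ⟨C, hC, b0, h⟩ := upper
  refine ⟨1 / 3, C, by norm_num, hC, max b0 3, ?_⟩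
  intro b hb
  have hb3 : 3 ≤ b := le_of_max_le_right hb
  exact ⟨h b (le_of_max_le_left hb), b - 1, by omega, by omega,
    fun s hs hsum => lower hb3 s hs hsum⟩

end Vale.Agent.P012
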